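import Vale.Agent.P248.H432.Q.Main

/-! P248, Q1: the induction for the class. -/

open MeasureTheory Set
open scoped ENNReal

namespace Vale.Agent.P248.H432.Q

variable {n : ℕ}

/-- change of frame in the plane of the coordinates `a, b` -/
noncomputable def rotF (a b : Fin n) (θ φ : ℝ) (z : Fin n → ℝ) : Fin n → ℝ :=
  fun i => if i = a then z a * Real.cos θ + z b * Real.cos φ
    else if i = b then z a * Real.sin θ + z b * Real.sin φ else z i

noncomputable def rotB (a b : Fin n) (θ φ : ℝ) (z : Fin n → ℝ) : Fin n → ℝ :=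
  fun i => if i = a then (z a * Real.sin φ - z b * Real.cos φ) / Real.sin (φ - θ)
    else if i = b then (z b * Real.cos θ - z a * Real.sin θ) / Real.sin (φ - θ) else z i

noncomputable def rotE {a b : Fin n} (hab : a ≠ b) {θ φ : ℝ} (h : Real.sin (φ - θ) ≠ 0) :
    (Fin n → ℝ) ≃ₗ[ℝ] (Fin n → ℝ) where
  toFun := rotF a b θ φ
  invFun := rotB a b θ φ
  map_add' x y := by
    funext i
    simp only [rotF, Pi.add_apply]
    split_ifs <;> ring
  map_smul' r x := by
    funext i
    simp only [rotF, Pi.smul_apply, smul_eq_mul, RingHom.id_apply]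
    split_ifs <;> ring
  left_inv z := by
    have hs : Real.sin φ * Real.cos θ - Real.cos φ * Real.sin θ ≠ 0 := by
      rwa [← Real.sin_sub]
    funext i
    simp only [rotB, rotF, hab.symm, ↓reduceIte]
    split_ifs with h1 h2
    · subst h1
      rw [div_eq_iff h, Real.sin_sub]
      ring
    · subst h2
      rw [div_eq_iff h, Real.sin_sub]
      ring
    · rfl
  right_inv z := by
    have hs : Real.sin φ * Real.cos θ - Real.cos φ * Real.sin θ ≠ 0 := by
      rwa [← Real.sin_sub]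
    funext i
    simp only [rotB, rotF, hab.symm, ↓reduceIte]
    split_ifs with h1 h2
    · subst h1
      rw [div_mul_eq_mul_div, div_mul_eq_mul_div, ← add_div, div_eq_iff h, Real.sin_sub]
      ring
    · subst h2
      rw [div_mul_eq_mul_div, div_mul_eq_mul_div, ← add_div, div_eq_iff h, Real.sin_sub]
      ring
    · rfl

noncomputable def rotC {a b : Fin n} (hab : a ≠ b) {θ φ : ℝ} (h : Real.sin (φ - θ) ≠ 0) :
    (Fin n → ℝ) ≃L[ℝ] (Fin n → ℝ) := (rotE hab h).toContinuousLinearEquiv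

theorem rotC_apply {a b : Fin n} (hab : a ≠ b) {θ φ : ℝ} (h : Real.sin (φ - θ) ≠ 0)
    (z : Fin n → ℝ) : rotC hab h z = rotF a b θ φ z := rfl

theorem SB.equiv {K : Set (Fin n → ℝ)} (hK : SB K) (A : (Fin n → ℝ) ≃L[ℝ] (Fin n → ℝ)) :
    SB (A ⁻¹' K) where
  cpt := A.toHomeomorph.isCompact_preimage.2 hK.cpt
  cvx := hK.cvx.linear_preimage (A : (Fin n → ℝ) →ₗ[ℝ] (Fin n → ℝ))
  int0 := by
    have h := A.toHomeomorph.preimage_interior K
    change (0 : Fin n → ℝ) ∈ interior (A.toHomeomorph ⁻¹' K)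
    rw [← h]
    change A 0 ∈ interior K
    rw [map_zero]
    exact hK.int0

theorem Cls.rot {a b : Fin n} {K : Set (Fin n → ℝ)} (hK : Cls a b K) {θ φ : ℝ}
    (h : Real.sin (φ - θ) ≠ 0) : Cls a b (rotC hK.ne h ⁻¹' K) where
  body := hK.body.equiv _
  ne := hK.ne
  neg := fun x hx => by
    simp only [mem_preimage] at hx ⊢
    rw [map_neg]
    exact hK.neg _ hx
  flip := fun i ha hb x hx => by
    simp only [mem_preimage] at hx ⊢
    have h1 := hK.flip i ha hb _ hx
    convert h1 using 1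
    funext j
    simp only [rotC_apply]
    by_cases hj : j = i
    · subst hj
      simp [rotF, ha, hb]
    · rw [Function.update_of_ne hj]
      simp only [rotF, Function.update_of_ne (Ne.symm ha), Function.update_of_ne (Ne.symm hb),
        Function.update_of_ne hj]
  perm := fun σ ha hb x hx => by
    simp only [mem_preimage] at hx ⊢
    have h1 := hK.perm σ ha hb _ hx
    convert h1 using 1
    funext j
    simp only [rotC_apply, rotF, Function.comp_apply, ha, hb]
    have e1 : σ j = a ↔ j = a := ⟨fun h => σ.injective (h.trans ha.symm), fun h => by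
      rw [h, ha]⟩
    have e2 : σ j = b ↔ j = b := ⟨fun h => σ.injective (h.trans hb.symm), fun h => by
      rw [h, hb]⟩
    simp only [e1, e2]

theorem rot_dc {a b : Fin n} (hab : a ≠ b) {θ φ : ℝ} (h : Real.sin (φ - θ) ≠ 0)
    (K : Set (Fin n → ℝ)) :
    rotC hab h ⁻¹' (K ∩ dc a b θ φ) = rotC hab h ⁻¹' K ∩ {z | 0 < z a * z b} := by
  ext z
  simp only [preimage_inter, mem_inter_iff, mem_preimage, dc, mem_setOf_eq, rotC_apply, rotF,
    hab.symm, ↓reduceIte]
  have e : ((z a * Real.sin θ + z b * Real.sin φ) * Real.cos θ -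
      (z a * Real.cos θ + z b * Real.cos φ) * Real.sin θ) *
      ((z a * Real.cos θ + z b * Real.cos φ) * Real.sin φ -
      (z a * Real.sin θ + z b * Real.sin φ) * Real.cos φ) =
      z a * z b * Real.sin (φ - θ) ^ 2 := by
    rw [Real.sin_sub]
    ring
  rw [e]
  have h2 : 0 < Real.sin (φ - θ) ^ 2 := by positivity
  constructor
  · rintro ⟨h3, h4⟩
    exact ⟨h3, (mul_pos_iff_of_pos_right h2).1 h4⟩
  · rintro ⟨h3, h4⟩
    exact ⟨h3, mul_pos h4 h2⟩

theorem rot_half {a b : Fin n} (hab : a ≠ b) {θ φ : ℝ} (h : Real.sin (φ - θ) ≠ 0)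
    {K : Set (Fin n → ℝ)} (hv : 2 * volume (K ∩ dc a b θ φ) = volume K) :
    2 * volume (rotC hab h ⁻¹' K ∩ {z | 0 < z a * z b}) = volume (rotC hab h ⁻¹' K) := by
  rw [← rot_dc, Measure.addHaar_preimage_continuousLinearEquiv,
    Measure.addHaar_preimage_continuousLinearEquiv, ← hv]
  ring

theorem rot_sec {m : ℕ} {a b : Fin (m + 1)} (hab : a ≠ b) {θ φ : ℝ}
    (h : Real.sin (φ - θ) ≠ 0) (K : Set (Fin (m + 1) → ℝ)) {i : Fin (m + 1)} (hia : i ≠ a)
    (hib : i ≠ b) {a' b' : Fin m} (ha : i.succAbove a' = a) (hb : i.succAbove b' = b)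
    (hab' : a' ≠ b') :
    sec (rotC hab h ⁻¹' K) i = rotC hab' h ⁻¹' (sec K i) := by
  ext y
  simp only [sec, mem_setOf_eq, mem_preimage, rotC_apply]
  have e : rotF a b θ φ (ins i 0 y) = ins i 0 (rotF a' b' θ φ y) := by
    have ya : ins i 0 y a = y a' := by rw [← ha]; simp [ins]
    have yb : ins i 0 y b = y b' := by rw [← hb]; simp [ins]
    funext k
    refine Fin.succAboveCases i ?_ (fun j => ?_) k
    · simp [rotF, ins, hia, hib]
    · have e1 : i.succAbove j = a ↔ j = a' := by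
        rw [← ha]
        exact Fin.succAbove_right_inj
      have e2 : i.succAbove j = b ↔ j = b' := by
        rw [← hb]
        exact Fin.succAbove_right_inj
      have e3 : ins i 0 y (i.succAbove j) = y j := by simp [ins]
      have e4 : ins i 0 (rotF a' b' θ φ y) (i.succAbove j) = rotF a' b' θ φ y j := by simp [ins]
      rw [e4]
      simp only [rotF, e1, e2, e3, ya, yb]
  rw [e]

theorem pCls (hM : PMain) (hI : PIvt) (hU : PUncEq) (hUnc : PUnc) (hO : POrt) (hS : PSec) :
    PCls := by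
  intro n
  induction n with
  | zero => exact fun a => a.elim0
  | succ m ih =>
    intro a b K hK
    -- simultaneous equipartition
    have key : ∃ (θ φ : ℝ) (h : Real.sin (φ - θ) ≠ 0),
        2 * volume (rotC hK.ne h ⁻¹' K ∩ {z | 0 < z a * z b}) = volume (rotC hK.ne h ⁻¹' K) ∧
        ∀ (i : Fin (m + 1)), i ≠ a → i ≠ b → ∀ a' b' : Fin m, i.succAbove a' = a →
          i.succAbove b' = b →
          2 * volume (sec (rotC hK.ne h ⁻¹' K) i ∩ {z | 0 < z a' * z b'}) =
            volume (sec (rotC hK.ne h ⁻¹' K) i) := by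
      by_cases hex : ∃ i₀ : Fin (m + 1), i₀ ≠ a ∧ i₀ ≠ b
      · obtain ⟨i₀, h0a, h0b⟩ := hex
        obtain ⟨a₀, b₀, ha₀, hb₀, hc₀⟩ := (hS m a b K hK).1 i₀ h0a h0b
        obtain ⟨θ, φ, h, hv1, hv2⟩ := hI _ _ K (sec K i₀) a b a₀ b₀ hK.ne hc₀.ne hK.body hc₀.body
        refine ⟨θ, φ, h, rot_half hK.ne h hv1, fun i hia hib a' b' ha' hb' => ?_⟩
        have h1 := (hS m a b _ (hK.rot h)).2.2 i i₀ hia hib h0a h0b a' b' a₀ b₀ ha' hb' ha₀ hb₀
        rw [h1.1, h1.2, rot_sec hK.ne h K h0a h0b ha₀ hb₀ hc₀.ne]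
        exact rot_half hc₀.ne h hv2
      · obtain ⟨θ, φ, h, hv1, -⟩ := hI _ _ K K a b a b hK.ne hK.ne hK.body hK.body
        refine ⟨θ, φ, h, rot_half hK.ne h hv1, fun i hia hib => ?_⟩
        exact absurd ⟨i, hia, hib⟩ hex
    obtain ⟨θ, φ, h, hv, hvs⟩ := key
    set K' := rotC hK.ne h ⁻¹' K with hK'
    have hc : Cls a b K' := hK.rot h
    obtain ⟨s1, s2, -⟩ := hS m a b K' hc
    have hE : Equi K' := by
      refine ⟨hO _ a b K' hc hv, fun i J => ?_⟩
      by_cases hi : i = a ∨ i = b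
      · exact hU m _ (s2 i hi).1 (s2 i hi).2 J
      · rw [not_or] at hi
        obtain ⟨a', b', ha', hb', hc'⟩ := s1 i hi.1 hi.2
        exact hO m a' b' _ hc' (hvs i hi.1 hi.2 a' b' ha' hb') J
    have hMah : Mah K' := by
      refine hM m K' hc.body hE fun i => ?_
      by_cases hi : i = a ∨ i = b
      · exact hUnc m _ (s2 i hi).1 (s2 i hi).2
      · rw [not_or] at hi
        obtain ⟨a', b', ha', hb', hc'⟩ := s1 i hi.1 hi.2
        exact ih a' b' _ hc'
    have e := volume_mul_equiv (rotC hK.ne h) K 0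
    rw [map_zero] at e
    unfold Mah
    rw [e]
    exact hMah

end Vale.Agent.P248.H432.Q
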