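import Vale.Agent.P248.H432.Q.Spec

/-! P248, Q1: block CONE. -/

open MeasureTheory Set
open scoped ENNReal Pointwise

namespace Vale.Agent.P248.H432.Q

theorem sublin_gauge {n : ℕ} {K : Set (Fin n → ℝ)} (hK : SB K) : Sublin (gauge K) where
  cont := continuous_gauge hK.cvx (mem_interior_iff_mem_nhds.1 hK.int0)
  add_le := gauge_add_le hK.cvx (absorbent_nhds_zero (mem_interior_iff_mem_nhds.1 hK.int0))
  smul_eq := fun _ hr x => gauge_smul_of_nonneg hr x

theorem gauge_le_iff {n : ℕ} {K : Set (Fin n → ℝ)} (hK : SB K) (x : Fin n → ℝ) :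
    gauge K x ≤ 1 ↔ x ∈ K := by
  rw [gauge_le_one_iff_mem_closure hK.cvx (mem_interior_iff_mem_nhds.1 hK.int0),
    hK.cpt.isClosed.closure_eq]

theorem body_univ {n : ℕ} {K : Set (Fin n → ℝ)} (hK : SB K) :
    body (gauge K) Finset.univ = pos K := by
  ext x
  have h1 : res Finset.univ x = x := by
    funext i
    simp [res]
  simp only [body, pos, mem_ofPred_eq, mem_inter_iff, h1, Finset.compl_univ, Finset.sum_empty,
    add_zero, gauge_le_iff hK]
  exact and_comm

theorem ins_mem_body {m : ℕ} {K : Set (Fin (m + 1) → ℝ)} (hK : SB K) (i : Fin (m + 1)) {s : ℝ}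
    (hs0 : 0 ≤ s) (hs1 : s ≤ 1) {y : Fin m → ℝ} (hy : y ∈ pos (sec K i)) :
    ins i s ((1 - s) • y) ∈ body (gauge K) (Finset.univ.erase i) := by
  have hr : 0 ≤ 1 - s := by linarith
  refine ⟨fun k => ?_, ?_⟩
  · refine Fin.succAboveCases i ?_ (fun j => ?_) k
    · simpa [ins] using hs0
    · have h1 := hy.2 j
      have h2 := mul_nonneg hr h1
      simpa [ins] using h2
  · have h1 : res (Finset.univ.erase i) (ins i s ((1 - s) • y)) = (1 - s) • ins i 0 y := by
      rw [ins_smul]
      funext k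
      refine Fin.succAboveCases i ?_ (fun j => ?_) k
      · simp [res, ins]
      · simp [res, ins, Fin.succAbove_ne]
    have h2 : (Finset.univ.erase i)ᶜ = ({i} : Finset (Fin (m + 1))) := by
      ext k
      simp
    rw [h1, h2, Finset.sum_singleton, ins_same, gauge_smul_of_nonneg hr]
    have h3 : gauge K (ins i 0 y) ≤ 1 := (gauge_le_iff hK _).2 hy.1
    have h4 : (1 - s) * gauge K (ins i 0 y) ≤ (1 - s) * 1 := mul_le_mul_of_nonneg_left h3 hr
    rw [smul_eq_mul]
    linarith

theorem lintegral_one_sub_pow (m : ℕ) :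
    ((m + 1 : ℕ) : ℝ≥0∞) * ∫⁻ s in Ioo (0 : ℝ) 1, ENNReal.ofReal ((1 - s) ^ m) = 1 := by
  have h1 : ∫ s in (0 : ℝ)..1, (1 - s) ^ m = 1 / ((m : ℝ) + 1) := by
    have h2 := intervalIntegral.integral_comp_sub_left (a := 0) (b := 1)
      (fun x : ℝ => x ^ m) 1
    rw [h2]
    simp [integral_pow]
  have h3 : ∫⁻ s in Ioo (0 : ℝ) 1, ENNReal.ofReal ((1 - s) ^ m) =
      ENNReal.ofReal (1 / ((m : ℝ) + 1)) := by
    rw [← h1, intervalIntegral.integral_of_le zero_le_one, integral_Ioc_eq_integral_Ioo,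
      ofReal_integral_eq_lintegral_ofReal]
    · have h4 : ContinuousOn (fun s : ℝ => (1 - s) ^ m) (Icc 0 1) := by fun_prop
      exact (h4.integrableOn_Icc).mono_set Ioo_subset_Icc_self
    · refine (ae_restrict_iff' measurableSet_Ioo).2 (Filter.Eventually.of_forall fun s hs => ?_)
      exact pow_nonneg (by linarith [hs.2]) m
  rw [h3, ← ENNReal.ofReal_natCast, ← ENNReal.ofReal_mul (by positivity)]
  push_cast
  rw [mul_one_div_cancel (by positivity), ENNReal.ofReal_one]

theorem vol_sec_le {m : ℕ} {K : Set (Fin (m + 1) → ℝ)} (hK : SB K) (i : Fin (m + 1)) :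
    volume (pos (sec K i)) ≤
      ((m + 1 : ℕ) : ℝ≥0∞) * volume (body (gauge K) (Finset.univ.erase i)) := by
  set B := body (gauge K) (Finset.univ.erase i) with hB
  have hBm : MeasurableSet B := (body_isClosed (sublin_gauge hK) _).measurableSet
  have h1 : volume B = ∫⁻ s : ℝ, volume {y : Fin m → ℝ | ins i s y ∈ B} := by
    have h2 := lintegral_ins i (u := B.indicator 1) (measurable_one.indicator hBm)
    rw [lintegral_indicator_one hBm] at h2
    rw [h2]
    refine lintegral_congr fun s => ?_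
    have hm : MeasurableSet {y : Fin m → ℝ | ins i s y ∈ B} :=
      ((measurable_ins i).comp measurable_prodMk_left) hBm
    rw [← lintegral_indicator_one hm]
    rfl
  have h3 : ∀ s ∈ Ioo (0 : ℝ) 1, ENNReal.ofReal ((1 - s) ^ m) * volume (pos (sec K i)) ≤
      volume {y : Fin m → ℝ | ins i s y ∈ B} := by
    intro s hs
    have h4 : ENNReal.ofReal ((1 - s) ^ m) * volume (pos (sec K i)) =
        volume ((1 - s) • pos (sec K i)) := by
      rw [Measure.addHaar_smul, Module.finrank_fin_fun, abs_of_nonneg]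
      exact pow_nonneg (by linarith [hs.2]) m
    rw [h4]
    refine measure_mono ?_
    rintro _ ⟨y, hy, rfl⟩
    exact ins_mem_body hK i hs.1.le hs.2.le hy
  calc volume (pos (sec K i))
      = ((m + 1 : ℕ) : ℝ≥0∞) * (∫⁻ s in Ioo (0 : ℝ) 1, ENNReal.ofReal ((1 - s) ^ m)) *
          volume (pos (sec K i)) := by rw [lintegral_one_sub_pow, one_mul]
    _ = ((m + 1 : ℕ) : ℝ≥0∞) * ∫⁻ s in Ioo (0 : ℝ) 1,
          ENNReal.ofReal ((1 - s) ^ m) * volume (pos (sec K i)) := by
        rw [mul_assoc, lintegral_mul_const _ (by fun_prop)]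
    _ ≤ ((m + 1 : ℕ) : ℝ≥0∞) * ∫⁻ s in Ioo (0 : ℝ) 1,
          volume {y : Fin m → ℝ | ins i s y ∈ B} := by
        refine mul_le_mul_right (setLIntegral_mono' measurableSet_Ioo h3) _
    _ ≤ ((m + 1 : ℕ) : ℝ≥0∞) * volume B := by
        rw [h1]
        exact mul_le_mul_right (setLIntegral_le_lintegral _ _) _

theorem pCone : PCone := by
  intro m K hK x hx hx0
  have h1 := cone_lemma (sublin_gauge hK) (J := Finset.univ) (w := x) hx0
    (fun i hi => absurd (Finset.mem_univ i) hi) ((gauge_le_iff hK x).2 hx)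
  rw [body_univ hK] at h1
  calc ∑ i, ENNReal.ofReal (x i) * volume (pos (sec K i))
      ≤ ∑ i, ENNReal.ofReal (x i) *
          (((m + 1 : ℕ) : ℝ≥0∞) * volume (body (gauge K) (Finset.univ.erase i))) :=
        Finset.sum_le_sum fun i _ => mul_le_mul_right (vol_sec_le hK i) _
    _ = ((m + 1 : ℕ) : ℝ≥0∞) * ∑ i, ENNReal.ofReal (x i) *
          volume (body (gauge K) (Finset.univ.erase i)) := by
        rw [Finset.mul_sum]
        exact Finset.sum_congr rfl fun i _ => by ring
    _ ≤ ((m + 1 : ℕ) : ℝ≥0∞) * volume (pos K) := mul_le_mul_right h1 _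
    _ = (m + 1 : ℝ≥0∞) * volume (pos K) := by push_cast; rfl

end Vale.Agent.P248.H432.Q
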