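import Vale.Agent.P248.H432.Q.Fin

/-! P248, Q1: bodies invariant under the rotations in all coordinates but two. -/

set_option linter.unusedSectionVars false

open MeasureTheory Set
open scoped ENNReal

namespace Vale.Agent.P248.H432.Q

open Vale.Agent.P254.US (IsG ball)
open Vale.Agent.P254.H242 (yp xp sp sp_inl sp_inr yp_sp xp_sp HG fb NN isG_NN vol_ball kap kap_pos
  RInv exists_split HH hg_HH fb_HH vol_fb convex_fb compact_fb NN_sq)

variable {n q p : ℕ}

theorem isG_norm : IsG (fun x : Fin p → ℝ => ‖x‖) where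
  nonneg := norm_nonneg
  smul := fun t ht x => by rw [norm_smul, Real.norm_of_nonneg ht]
  add := norm_add_le
  cont := continuous_norm
  coer := ⟨1, one_pos, fun x => by rw [one_mul]⟩

theorem vol_cube (hp : 1 ≤ p) : volume (ball (fun x : Fin p → ℝ => ‖x‖)) = ENNReal.ofReal (2 ^ p) := by
  have : Nonempty (Fin p) := ⟨⟨0, hp⟩⟩
  have e : ball (fun x : Fin p → ℝ => ‖x‖) = Metric.closedBall (0 : Fin p → ℝ) 1 := by
    ext x
    rw [mem_closedBall_zero_iff]
    rfl
  rw [e, Real.volume_pi_closedBall _ (by norm_num), Fintype.card_fin, mul_one]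

theorem vol_cross (hp : 1 ≤ p) :
    volume (polarP (ball (fun x : Fin p → ℝ => ‖x‖)) 0) ≤
      ENNReal.ofReal (2 ^ p / (p.factorial : ℝ)) := by
  have : Nonempty (Fin p) := ⟨⟨0, hp⟩⟩
  have h := MeasureTheory.volume_sum_rpow_le (ι := Fin p) (p := 1) le_rfl 1
  have e1 : (2 * Real.Gamma (1 / 1 + 1)) ^ Fintype.card (Fin p) /
      Real.Gamma (Fintype.card (Fin p) / 1 + 1) = 2 ^ p / (p.factorial : ℝ) := by
    rw [Fintype.card_fin, div_one, div_one, Real.Gamma_nat_eq_factorial]
    norm_num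
  rw [e1, ENNReal.ofReal_one, one_pow, one_mul] at h
  rw [← h]
  refine measure_mono fun y hy => ?_
  simp only [mem_setOf_eq, div_one, Real.rpow_one]
  -- test with the sign vector
  have h1 := hy (fun i => if 0 ≤ y i then 1 else -1) (by
    show ‖_‖ ≤ (1 : ℝ)
    rw [pi_norm_le_iff_of_nonneg zero_le_one]
    intro i
    by_cases h2 : 0 ≤ y i <;> simp [h2])
  refine le_trans (le_of_eq ?_) h1
  refine Finset.sum_congr rfl fun i _ => ?_
  by_cases h2 : 0 ≤ y i
  · simp [h2, abs_of_nonneg h2]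
  · simp [h2, abs_of_neg (not_le.1 h2)]

/-- exchange of the ball for the cube in a block of rotations -/
theorem exc {T : Finset (Fin n)} (hT : 1 ≤ T.card) {K : Set (Fin n → ℝ)} (hK : CB K)
    (hs : ∀ x ∈ K, -x ∈ K) (hR : RInv T K) {k l : Fin n} (hkl : k ≠ l)
    (hkT : ∀ i, i ∉ T ↔ i = k ∨ i = l) : ∃ K' : Set (Fin n → ℝ), Cls k l K' ∧
      (volume K' * volume (polarP K' 0)) * ENNReal.ofReal (kap T.card ^ 2) ≤
        (volume K * volume (polarP K 0)) * ENNReal.ofReal (4 ^ T.card / (T.card.factorial : ℝ)) := by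
  obtain ⟨q, e, h1, h2⟩ := exists_split T
  have hKb : Vale.Agent.P254.IsConvexBody K := ⟨hK.cvx, hK.cpt, hK.ne⟩
  have hH := hg_HH hKb hR h1 h2 ⟨0, hT⟩
  have hKe := fb_HH hR h1 h2 ⟨0, hT⟩
  set u : Fin T.card → ℝ := Pi.single ⟨0, hT⟩ 1 with hu
  set W : Set (Fin T.card → ℝ) := ball (fun x : Fin T.card → ℝ => ‖x‖) with hWd
  have hg : IsG (fun x : Fin T.card → ℝ => ‖x‖) := isG_norm
  obtain ⟨hW, h0⟩ := cb_ball hg
  have hvK : (volume K).toReal ≠ 0 := (hK.vol_toReal_pos).ne'
  have hvW : (volume W).toReal ≠ 0 := (hW.vol_toReal_pos).ne'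
  have hV1 := vol_fb e hH isG_NN hT
  rw [hKe, vol_ball hT] at hV1
  have hV2 := vol_fb e hH hg hT
  set J := Vale.Agent.P254.H242.JJ T.card (HH e K u) 0 (fun _ => 1) with hJd
  have hJ : J ≠ 0 := by
    intro h
    rw [h, zero_mul] at hV1
    exact hvK hV1
  have hne : (HH e K u).Nonempty := by
    obtain ⟨x, hx⟩ := hK.ne
    have hx' := interior_subset hx
    rw [← hKe] at hx'
    exact ⟨_, hx'⟩
  set K' : Set (Fin n → ℝ) := fb e (HH e K u) (fun x : Fin T.card → ℝ => ‖x‖) with hK'
  have hcK := compact_fb e hH hg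
  have hbody : CB K' := by
    have h3 := Vale.Agent.P254.FV.body_of_vol (convex_fb e hH hg) hcK
      (by rw [hV2]; exact mul_ne_zero hJ hvW)
    exact ⟨h3.2.1, h3.1, h3.2.2⟩
  -- symmetries of the base
  have hHneg : ∀ y r, (y, r) ∈ HH e K u → (-y, r) ∈ HH e K u := by
    intro y r hyr
    refine ⟨hyr.1, ?_⟩
    have h3 := hs _ hyr.2
    refine hR _ h3 _ (fun i hi => ?_) ?_
    · obtain ⟨s, rfl⟩ := e.symm.surjective i
      rcases s with j | j
      · rw [sp_inl, Pi.neg_apply, sp_inl]
        rfl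
      · exact absurd (h2 j) hi
    · refine Finset.sum_congr rfl fun i hi => ?_
      obtain ⟨s, rfl⟩ := e.symm.surjective i
      rcases s with j | j
      · exact absurd hi (h1 j)
      · rw [sp_inr, Pi.neg_apply, sp_inr]
        ring
  have hneg : ∀ x ∈ K', -x ∈ K' := by
    intro x hx
    have e1 : yp e (-x) = -(yp e x) := rfl
    have e2 : xp e (-x) = -(xp e x) := rfl
    show (yp e (-x), ‖xp e (-x)‖) ∈ HH e K u
    rw [e1, e2, norm_neg]
    exact hHneg _ _ hx
  have hmono : ∀ x ∈ K', ∀ x' : Fin n → ℝ, (∀ i, i ∉ T → x' i = x i) →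
      (∀ i ∈ T, ∃ j ∈ T, |x' i| = |x j|) → x' ∈ K' := by
    intro x hx x' h3 h4
    have e1 : yp e x' = yp e x := funext fun j => h3 _ (h1 j)
    show (yp e x', ‖xp e x'‖) ∈ HH e K u
    rw [e1]
    refine hH.down _ _ _ hx (norm_nonneg _) ?_
    rw [pi_norm_le_iff_of_nonneg (norm_nonneg _)]
    intro j
    obtain ⟨i, hi, h5⟩ := h4 _ (h2 j)
    obtain ⟨s, rfl⟩ := e.symm.surjective i
    rcases s with j' | j'
    · exact absurd hi (h1 j')
    · have h6 := norm_le_pi_norm (xp e x) j'
      rw [Real.norm_eq_abs] at h6 ⊢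
      show |x' (e.symm (Sum.inr j))| ≤ _
      rw [h5]
      exact h6
  have hmem : ∀ i, i ∈ T ↔ i ≠ k ∧ i ≠ l := by
    intro i
    rw [← not_iff_not, hkT i]
    tauto
  have hSB := sb_of_symm hbody hneg
  refine ⟨K', ⟨hSB, hkl, hneg, fun i hik hil x hx => ?_, fun σ hk hl x hx => ?_⟩, ?_⟩
  · refine hmono x hx _ (fun j hj => ?_) fun j hj => ⟨j, hj, ?_⟩
    · have hji : j ≠ i := by
        rintro rfl
        exact hj ((hmem j).2 ⟨hik, hil⟩)
      rw [Function.update_of_ne hji]
    · by_cases hji : j = i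
      · subst hji
        rw [Function.update_self, abs_neg]
      · rw [Function.update_of_ne hji]
  · refine hmono x hx _ (fun j hj => ?_) fun j hj => ⟨σ j, ?_, rfl⟩
    · rcases (hkT j).1 hj with rfl | rfl
      · rw [Function.comp_apply, hk]
      · rw [Function.comp_apply, hl]
    · rw [hmem] at hj ⊢
      exact ⟨fun h => hj.1 (σ.injective (h.trans hk.symm)),
        fun h => hj.2 (σ.injective (h.trans hl.symm))⟩
  · have hzx : xp e (0 : Fin n → ℝ) = 0 := rfl
    have hE := EF_exch hH hne isG_NN hg hT hzx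
    rw [hKe, hs_NN, ball_hs hW h0] at hE
    have hk := kap_pos T.card
    have e1 : volume (ball (NN : (Fin T.card → ℝ) → ℝ)) = ENNReal.ofReal (kap T.card) := by
      rw [← vol_ball hT]
      exact (ENNReal.ofReal_toReal (isG_NN.compact_le 1).measure_lt_top.ne).symm
    rw [e1] at hE
    have h0K : (0 : Fin n → ℝ) ∈ K := interior_subset (sb_of_symm hK hs).int0
    have h0K' : (0 : Fin n → ℝ) ∈ K' := interior_subset hSB.int0
    rw [EF_eq hK.cpt h0K, ← hK', EF_eq hbody.cpt h0K'] at hE
    have hf : ((Fintype.card (Fin n)).factorial : ℝ≥0∞) ≠ 0 := by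
      exact_mod_cast (Nat.factorial_pos _).ne'
    have hE' : volume (polarP W 0) * volume (polarP K 0) =
        ENNReal.ofReal (kap T.card) * volume (polarP K' 0) := by
      have h3 : ((Fintype.card (Fin n)).factorial : ℝ≥0∞) *
          (volume (polarP W 0) * volume (polarP K 0)) =
          ((Fintype.card (Fin n)).factorial : ℝ≥0∞) *
            (ENNReal.ofReal (kap T.card) * volume (polarP K' 0)) := by
        calc _ = volume (polarP W 0) *
              (((Fintype.card (Fin n)).factorial : ℝ≥0∞) * volume (polarP K 0)) := by ring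
          _ = _ := by rw [hE]; ring
      exact (ENNReal.mul_right_inj hf (ENNReal.natCast_ne_top _)).1 h3
    have hv : volume K * volume W = volume K' * ENNReal.ofReal (kap T.card) := by
      have f1 := hK.vol_ne_top
      have f2 := hW.vol_ne_top
      have f3 := hbody.vol_ne_top
      rw [← ENNReal.toReal_eq_toReal_iff' (ENNReal.mul_ne_top f1 f2)
        (ENNReal.mul_ne_top f3 ENNReal.ofReal_ne_top), ENNReal.toReal_mul, ENNReal.toReal_mul,
        ENNReal.toReal_ofReal hk.le, hV1, hV2]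
      ring
    have hWW : volume W * volume (polarP W 0) ≤
        ENNReal.ofReal (4 ^ T.card / (T.card.factorial : ℝ)) := by
      have h3 := vol_cross hT
      rw [← hWd] at h3
      refine (mul_le_mul' (vol_cube hT).le h3).trans (le_of_eq ?_)
      rw [← ENNReal.ofReal_mul (by positivity)]
      congr 1
      rw [← mul_div_assoc, ← mul_pow]
      norm_num
    calc (volume K' * volume (polarP K' 0)) * ENNReal.ofReal (kap T.card ^ 2)
        = (volume K' * ENNReal.ofReal (kap T.card)) *
            (ENNReal.ofReal (kap T.card) * volume (polarP K' 0)) := by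
          rw [pow_two, ENNReal.ofReal_mul hk.le]
          ring
      _ = (volume K * volume (polarP K 0)) * (volume W * volume (polarP W 0)) := by
          rw [← hv, ← hE']
          ring
      _ ≤ _ := by gcongr

end Vale.Agent.P248.H432.Q
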