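import Vale.Agent.P248.H432.Q.Rotn
import Vale.Agent.P248.H917.Fib

/-! P248, Q1: symmetric bodies whose fibres over a plane are homothets of one symmetric body. -/

set_option linter.unusedSectionVars false

open MeasureTheory Set
open scoped ENNReal

namespace Vale.Agent.P248.H432.Q

open Vale.Agent.P254.US (IsG ball isG_gauge)
open Vale.Agent.P254.H242 (yp xp sp sp_inl sp_inr yp_sp xp_sp HG fb HH)
open Vale.Agent.P248.H917 (Fbr exists_u0 mem_HH hg_HH_fbr exchange gauge_ball)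

variable {n p : ℕ}

/-- bodies fibred by cubes over a plane belong to the class -/
theorem cls_fb (e : Fin n ≃ Fin 2 ⊕ Fin p) {H : Set ((Fin 2 → ℝ) × ℝ)} (hH : HG H)
    (hHneg : ∀ y r, (y, r) ∈ H → (-y, r) ∈ H)
    (hCB : CB (fb e H (fun x : Fin p → ℝ => ‖x‖))) :
    Cls (e.symm (Sum.inl 0)) (e.symm (Sum.inl 1)) (fb e H (fun x : Fin p → ℝ => ‖x‖)) := by
  set K' : Set (Fin n → ℝ) := fb e H (fun x : Fin p → ℝ => ‖x‖) with hK'
  have hkl : e.symm (Sum.inl 0) ≠ e.symm (Sum.inl 1) := by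
    intro h
    have := e.symm.injective h
    simp at this
  have hneg : ∀ x ∈ K', -x ∈ K' := by
    intro x hx
    have e1 : yp e (-x) = -(yp e x) := rfl
    have e2 : xp e (-x) = -(xp e x) := rfl
    show (yp e (-x), ‖xp e (-x)‖) ∈ H
    rw [e1, e2, norm_neg]
    exact hHneg _ _ hx
  have hsplit : ∀ i : Fin n, (i = e.symm (Sum.inl 0) ∨ i = e.symm (Sum.inl 1)) ∨
      ∃ j, i = e.symm (Sum.inr j) := by
    intro i
    obtain ⟨s, rfl⟩ := e.symm.surjective i
    rcases s with j | j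
    · left
      have hj : j = 0 ∨ j = 1 := by omega
      rcases hj with rfl | rfl
      · exact Or.inl rfl
      · exact Or.inr rfl
    · exact Or.inr ⟨j, rfl⟩
  have hmono : ∀ x ∈ K', ∀ x' : Fin n → ℝ, (∀ j, x' (e.symm (Sum.inl j)) = x (e.symm (Sum.inl j))) →
      (∀ j, ∃ j', |x' (e.symm (Sum.inr j))| = |x (e.symm (Sum.inr j'))|) → x' ∈ K' := by
    intro x hx x' h3 h4
    have e1 : yp e x' = yp e x := funext fun j => h3 j
    show (yp e x', ‖xp e x'‖) ∈ H
    rw [e1]
    refine hH.down _ _ _ hx (norm_nonneg _) ?_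
    rw [pi_norm_le_iff_of_nonneg (norm_nonneg _)]
    intro j
    obtain ⟨j', h5⟩ := h4 j
    have h6 := norm_le_pi_norm (xp e x) j'
    rw [Real.norm_eq_abs] at h6 ⊢
    show |x' (e.symm (Sum.inr j))| ≤ _
    rw [h5]
    exact h6
  refine ⟨sb_of_symm hCB hneg, hkl, hneg, fun i hik hil x hx => ?_, fun σ hk hl x hx => ?_⟩
  · refine hmono x hx _ (fun j => ?_) fun j => ⟨j, ?_⟩
    · have hji : e.symm (Sum.inl j) ≠ i := by
        have hj : j = 0 ∨ j = 1 := by omega
        rcases hj with rfl | rfl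
        · exact hik.symm
        · exact hil.symm
      rw [Function.update_of_ne hji]
    · by_cases hji : e.symm (Sum.inr j) = i
      · rw [← hji, Function.update_self, abs_neg]
      · rw [Function.update_of_ne hji]
  · refine hmono x hx _ (fun j => ?_) fun j => ?_
    · have hj : j = 0 ∨ j = 1 := by omega
      rcases hj with rfl | rfl
      · rw [Function.comp_apply, hk]
      · rw [Function.comp_apply, hl]
    · rcases hsplit (σ (e.symm (Sum.inr j))) with (h | h) | ⟨j', h⟩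
      · have h7 := σ.injective (h.trans hk.symm)
        have h8 := e.symm.injective h7
        simp at h8
      · have h7 := σ.injective (h.trans hl.symm)
        have h8 := e.symm.injective h7
        simp at h8
      · exact ⟨j', by rw [Function.comp_apply, h]⟩

theorem mah_at {S : Set (Fin n → ℝ)} (hS : SB S) (hn : ∀ x ∈ S, -x ∈ S) (hM : Mah S)
    {z : Fin n → ℝ} (hz : z ∈ interior S) :
    4 ^ n / (n.factorial : ℝ) ≤ H917.vp S z := by
  have h1 : ENNReal.ofReal (4 ^ n / (n.factorial : ℝ)) ≤ volume S * volume (polarP S z) := by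
    refine hM.trans ?_
    rw [← vp_symm hS hn]
    exact iInf₂_le z hz
  have h2 := ENNReal.toReal_mono (ENNReal.mul_ne_top hS.cpt.measure_lt_top.ne
    (polarP_isBounded hz).measure_lt_top.ne) h1
  rw [ENNReal.toReal_ofReal (by positivity), ENNReal.toReal_mul] at h2
  exact h2

/-- the fibred law in coordinates -/
theorem fibred_at (hP : PCls) (e : Fin n ≃ Fin 2 ⊕ Fin p) (hp : 1 ≤ p) {U : Set (Fin p → ℝ)}
    (hU : CB U) (hUs : ∀ x ∈ U, -x ∈ U) {K : Set (Fin n → ℝ)} (hK : CB K)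
    (hKs : ∀ x ∈ K, -x ∈ K) (hF : Fbr e U K) {z : Fin n → ℝ} (hz : z ∈ interior K) :
    H917.vp U 0 * (4 ^ n / (n.factorial : ℝ)) ≤ 4 ^ p / (p.factorial : ℝ) * H917.vp K z := by
  have hUb : H917.Bd U := ⟨hU.cvx, hU.cpt, hU.ne⟩
  have hKb : H917.Bd K := ⟨hK.cvx, hK.cpt, hK.ne⟩
  have h0 := (sb_of_symm hU hUs).int0
  obtain ⟨hg, hb⟩ := isG_gauge hUb h0
  obtain ⟨u, hu, hu0⟩ := exists_u0 hp hg
  have hH := hg_HH_fbr hKb hg hF hu hu0
  have hKe : fb e (HH e K u) (gauge U) = K := by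
    ext x
    show (yp e x, gauge U (xp e x)) ∈ HH e K u ↔ x ∈ K
    rw [mem_HH hg hF hu, Vale.Agent.P254.H242.sp_yx]
  -- the cube
  set W : Set (Fin p → ℝ) := ball (fun x : Fin p → ℝ => ‖x‖) with hWd
  have hgW : IsG (fun x : Fin p → ℝ => ‖x‖) := isG_norm
  obtain ⟨hW, hW0⟩ := cb_ball hgW
  have hWb : H917.Bd W := ⟨hW.cvx, hW.cpt, hW.ne⟩
  have hz' := hz
  rw [← hKe] at hz'
  obtain ⟨hK', z', hz1, hle⟩ := exchange e hH hp hUb h0 hUs hWb hW0 hz'
  have hgau : gauge W = fun x : Fin p → ℝ => ‖x‖ := gauge_ball hgW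
  rw [hgau] at hK' hz1 hle
  have hCB : CB (fb e (HH e K u) (fun x : Fin p → ℝ => ‖x‖)) := ⟨hK'.2.1, hK'.1, hK'.2.2⟩
  have hHneg : ∀ y r, (y, r) ∈ HH e K u → (-y, r) ∈ HH e K u := by
    intro y r hyr
    have h1 : sp e (y, r • u) ∈ K := hyr.2
    have e0 : ∀ (y : Fin 2 → ℝ) (x : Fin p → ℝ), sp e (-y, -x) = -(sp e (y, x)) := by
      intro y x
      funext i
      obtain ⟨s, rfl⟩ := e.symm.surjective i
      rcases s with j | j
      · rw [sp_inl, Pi.neg_apply, sp_inl]
        rfl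
      · rw [sp_inr, Pi.neg_apply, sp_inr]
        rfl
    have h2 : sp e (-y, -(r • u)) ∈ K := by
      rw [e0]
      exact hKs _ h1
    refine ⟨hyr.1, ?_⟩
    -- fibre over `-y` is symmetric
    rcases hF (-y) with h | ⟨r', hr', h⟩
    · have : (-(r • u)) ∈ {x | sp e (-y, x) ∈ K} := h2
      rw [h] at this
      exact absurd this (notMem_empty _)
    · have h3 : (-(r • u)) ∈ {x | sp e (-y, x) ∈ K} := h2
      rw [h] at h3
      have h4 : (r • u) ∈ {x | gauge U x ≤ r'} := by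
        simp only [mem_setOf_eq] at h3 ⊢
        rwa [gauge_neg hUs] at h3
      rw [← h] at h4
      exact h4
  have hc := cls_fb e hH hHneg hCB
  have hM := hP n _ _ _ hc
  have h1 := mah_at hc.body hc.neg hM hz1
  have h2 : H917.vp W 0 ≤ 4 ^ p / (p.factorial : ℝ) := by
    have h3 : volume W * volume (polarP W 0) ≤ ENNReal.ofReal (4 ^ p / (p.factorial : ℝ)) := by
      refine (mul_le_mul' (vol_cube hp).le (vol_cross hp)).trans (le_of_eq ?_)
      rw [← ENNReal.ofReal_mul (by positivity)]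
      congr 1
      rw [← mul_div_assoc, ← mul_pow]
      norm_num
    have h4 := ENNReal.toReal_mono ENNReal.ofReal_ne_top h3
    rw [ENNReal.toReal_ofReal (by positivity), ENNReal.toReal_mul] at h4
    exact h4
  have hU0 : 0 ≤ H917.vp U 0 := mul_nonneg ENNReal.toReal_nonneg ENNReal.toReal_nonneg
  have hK0 : 0 ≤ H917.vp K z := mul_nonneg ENNReal.toReal_nonneg ENNReal.toReal_nonneg
  rw [hKe] at hle
  calc H917.vp U 0 * (4 ^ n / (n.factorial : ℝ))
      ≤ H917.vp U 0 * H917.vp (fb e (HH e K u) (fun x : Fin p → ℝ => ‖x‖)) z' := by gcongr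
    _ ≤ H917.vp W 0 * H917.vp K z := hle
    _ ≤ _ := by gcongr

end Vale.Agent.P248.H432.Q
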