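import Vale.Agent.P248.H432.Q.Fibr
import Vale.Agent.P248.H432.Bridge

/-! P248, Q1: symmetric bodies fibred over a plane, in Euclidean space. -/

set_option linter.unusedSectionVars false

open MeasureTheory Set
open scoped ENNReal

namespace Vale.Agent.P248.H432.Q

open Vale.Agent.P254.US (IsG ball isG_gauge)
open Vale.Agent.P254.H242 (yp xp sp sp_inl sp_inr yp_sp xp_sp)
open Vale.Agent.P248.H917 (Fbr)

variable {n p : ℕ}

theorem exists_smul_iff {U : Set (Fin p → ℝ)} (hU : CB U) (h0 : (0 : Fin p → ℝ) ∈ interior U)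
    {r : ℝ} (hr : 0 ≤ r) (x : Fin p → ℝ) : (∃ u ∈ U, x = r • u) ↔ gauge U x ≤ r := by
  obtain ⟨hg, hb⟩ := isG_gauge (⟨hU.cvx, hU.cpt, hU.ne⟩ : H917.Bd U) h0
  have hmem : ∀ u, u ∈ U ↔ gauge U u ≤ 1 := by
    intro u
    conv_lhs => rw [← hb]
    rfl
  rcases hr.eq_or_lt with rfl | hr
  · rw [H917.le_zero_iff hg]
    constructor
    · rintro ⟨u, -, rfl⟩
      exact zero_smul _ _
    · rintro rfl
      exact ⟨0, interior_subset h0, (zero_smul _ _).symm⟩
  · constructor
    · rintro ⟨u, hu, rfl⟩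
      rw [hg.smul r hr.le]
      have := (hmem u).1 hu
      nlinarith
    · intro h
      refine ⟨r⁻¹ • x, ?_, ?_⟩
      · rw [hmem, hg.smul _ (inv_nonneg.2 hr.le)]
        rw [inv_mul_le_iff₀ hr, mul_one]
        exact h
      · rw [smul_inv_smul₀ hr.ne']

theorem frame_neg (b : Module.Basis (Fin n) ℝ (E n)) {K : Set (E n)} (hs : ∀ x ∈ K, -x ∈ K) :
    ∀ x ∈ frame 0 b ⁻¹' K, -x ∈ frame 0 b ⁻¹' K := by
  intro x hx
  have h2 := hs _ hx
  have e : -frame 0 b x = frame 0 b (-x) := by
    unfold frame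
    rw [map_neg, zero_add, zero_add]
  rw [e] at h2
  exact h2

/-- symmetric bodies fibred over a plane by a symmetric body -/
theorem plane_fibred (hP : PCls) {U : Set (E p)} {K : Set (E n)} (hU : IsConvexBody U)
    (hUs : ∀ x ∈ U, -x ∈ U) (hK : IsConvexBody K) (hKs : ∀ x ∈ K, -x ∈ K) (hp : 1 ≤ p)
    (hF : IsPlaneFibred U K) :
    ENNReal.ofReal (4 ^ n / (n.factorial : ℝ)) * volumeProduct U ≤
      ENNReal.ofReal (4 ^ p / (p.factorial : ℝ)) * volumeProduct K := by
  obtain ⟨hN, f, g, hf, hg, hsurj, hfib⟩ := hF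
  set F : E p →ₗ[ℝ] E n := hf.mk' f with hFd
  set G : E 2 →ₗ[ℝ] E n := hg.mk' g with hGd
  have htop : LinearMap.range F ⊔ LinearMap.range G = ⊤ := by
    rw [eq_top_iff]
    intro z _
    obtain ⟨x, y, e⟩ := hsurj z
    rw [e]
    exact Submodule.add_mem_sup ⟨x, rfl⟩ ⟨y, rfl⟩
  set B := (pbas F G htop hN).reindex (pix hN) with hB
  set S := frame 0 B ⁻¹' K with hS
  set U' := frame 0 (sb p) ⁻¹' U with hU'
  have hSb := CB_frame hK 0 B
  have hUb := CB_frame hU 0 (sb p)
  have hSs := frame_neg B hKs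
  have hUs' := frame_neg (sb p) hUs
  have h0 := (sb_of_symm hUb hUs').int0
  let e : Fin n ≃ Fin 2 ⊕ Fin p := (pix hN).symm.trans (Equiv.sumComm (Fin p) (Fin 2))
  have hmem : ∀ (y : Fin 2 → ℝ) (x : Fin p → ℝ), sp e (y, x) ∈ S ↔
      f (frame 0 (sb p) x) + g (frame 0 (sb 2) y) ∈ K := by
    intro y x
    have hw : rh (pix hN) (sp e (y, x)) = Sum.elim x y := by
      funext s
      rcases s with i | j
      · have := sp_inr e (y, x) i
        exact this
      · have := sp_inl e (y, x) j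
        exact this
    have h1 := frame_prod 0 F G htop hN (sp e (y, x)) hw
    rw [hS, mem_preimage, hB, h1, zero_add]
    rfl
  have hFb : Fbr e U' S := by
    intro y
    rcases hfib (frame 0 (sb 2) y) with h | ⟨r, hr, h⟩
    · left
      ext x
      simp only [mem_setOf_eq, mem_empty_iff_false, iff_false]
      rw [hmem]
      exact h _
    · right
      refine ⟨r, hr, ?_⟩
      ext x
      simp only [mem_setOf_eq]
      rw [hmem, h, ← exists_smul_iff hUb h0 hr]
      constructor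
      · rintro ⟨u, hu, e1⟩
        obtain ⟨hh, hh1⟩ := frame_homeo 0 (sb p)
        obtain ⟨u', rfl⟩ := hh.surjective u
        rw [hh1] at hu e1
        refine ⟨u', hu, ?_⟩
        have e2 : r • frame 0 (sb p) u' = frame 0 (sb p) (r • u') := by
          unfold frame
          rw [map_smul, zero_add, zero_add]
        rw [e2, ← hh1, ← hh1] at e1
        exact hh.injective e1
      · rintro ⟨u, hu, rfl⟩
        refine ⟨frame 0 (sb p) u, hu, ?_⟩
        unfold frame
        rw [map_smul, zero_add, zero_add]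
  have hz : (0 : Fin n → ℝ) ∈ interior S := (sb_of_symm hSb hSs).int0
  have h1 := fibred_at hP e hp hUb hUs' hSb hSs hFb hz
  have hPU : volumeProduct U ≤ volume U' * volume (polarP U' 0) := by
    rw [volumeProduct_eq_vp U 0 (sb p)]
    exact iInf₂_le 0 h0
  have hPK : volumeProduct K = volume S * volume (polarP S 0) := by
    rw [volumeProduct_eq_vp K 0 B, vp_symm (sb_of_symm hSb hSs) hSs]
  have f1 : volume U' * volume (polarP U' 0) ≠ ∞ := ENNReal.mul_ne_top
    hUb.cpt.measure_lt_top.ne (polarP_isBounded h0).measure_lt_top.ne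
  have f2 : volume S * volume (polarP S 0) ≠ ∞ := ENNReal.mul_ne_top
    hSb.cpt.measure_lt_top.ne (polarP_isBounded hz).measure_lt_top.ne
  rw [hPK]
  refine (mul_le_mul' le_rfl hPU).trans ?_
  rw [← ENNReal.ofReal_toReal f1, ← ENNReal.ofReal_toReal f2, ← ENNReal.ofReal_mul (by positivity),
    ← ENNReal.ofReal_mul (by positivity), ENNReal.toReal_mul, ENNReal.toReal_mul]
  refine ENNReal.ofReal_le_ofReal ?_
  rw [mul_comm]
  exact h1

end Vale.Agent.P248.H432.Q
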