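import Vale.Agent.P248.H432.Defs

/-! P248: origin-symmetric bodies with many coordinate symmetries (definition). -/

namespace Vale.Agent.P248.H432

/-- `K` is invariant, in some affine frame, under the signed permutations of all coordinates but
two, combined with the identity or minus the identity in these two coordinates (so `K` is
centrally symmetric; in the plane this is all that is required). -/
def IsCubeSym {n : ℕ} (K : Set (E n)) : Prop :=
  ∃ (p : E n) (b : Module.Basis (Fin n) ℝ (E n)) (k l : Fin n), k ≠ l ∧
    ∀ (σ : Equiv.Perm (Fin n)) (s : Fin n → ℝ), σ k = k → σ l = l → s k = s l →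
      (∀ i, |s i| = 1) → ∀ x ∈ K, ∀ y : E n,
        (∀ i, b.repr (y - p) i = s i * b.repr (x - p) (σ i)) → y ∈ K

end Vale.Agent.P248.H432
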