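import Vale.Agent.P248.H432.RotLaw
import Vale.Agent.P248.H432.Q.Cls
import Vale.Agent.P248.H432.Q.SymDefs

/-! P248, Q1: the class in Euclidean space. -/

set_option linter.unusedSectionVars false

open MeasureTheory Set
open scoped ENNReal

namespace Vale.Agent.P248.H432.Q

variable {n : ℕ}

theorem sb_of_symm {S : Set (Fin n → ℝ)} (hS : CB S) (hn : ∀ x ∈ S, -x ∈ S) : SB S := by
  refine ⟨hS.cpt, hS.cvx, ?_⟩
  obtain ⟨x, hx⟩ := hS.ne
  have hneg : -x ∈ interior S := by
    have e : S = (Homeomorph.neg (Fin n → ℝ)) ⁻¹' S := by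
      ext y
      exact ⟨fun h => hn y h, fun h => by
        have := hn _ h
        simpa using this⟩
    rw [e, ← (Homeomorph.neg (Fin n → ℝ)).preimage_interior]
    simpa using hx
  have h2 := hS.cvx.interior hx hneg (by norm_num : (0 : ℝ) ≤ 1 / 2)
    (by norm_num : (0 : ℝ) ≤ 1 / 2) (by norm_num)
  have e : (1 / 2 : ℝ) • x + (1 / 2 : ℝ) • -x = 0 := by
    rw [smul_neg, add_neg_cancel]
  rwa [e] at h2

/-- for symmetric bodies the infimum over the centres is attained at `0` -/
theorem vp_symm {S : Set (Fin n → ℝ)} (hS : SB S) (hn : ∀ x ∈ S, -x ∈ S) :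
    vp S = volume S * volume (polarP S 0) := by
  have hCB : CB S := ⟨hS.cpt, hS.cvx, ⟨0, hS.int0⟩⟩
  refine le_antisymm (iInf₂_le 0 hS.int0) (le_iInf₂ fun u hu => mul_le_mul' le_rfl ?_)
  have h1 := symm_le hCB (U := Finset.univ) (fun x hx => by
    have := hn x hx
    convert this using 1
    funext i
    simp) u
  simp only [Finset.mem_univ, if_true] at h1
  have e0 : (fun _ : Fin n => (0 : ℝ)) = 0 := rfl
  rw [e0, EF_eq hS.cpt (interior_subset hS.int0), EF_eq hS.cpt (interior_subset hu)] at h1
  have hf : ((Fintype.card (Fin n)).factorial : ℝ≥0∞) ≠ 0 := by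
    exact_mod_cast (Nat.factorial_pos _).ne'
  exact (ENNReal.mul_le_mul_iff_right hf (ENNReal.natCast_ne_top _)).1 h1

/-- Q1's inequality in Euclidean space -/
theorem q1_cube (hP : PCls) {K : Set (E n)} (hK : IsConvexBody K) (hs : IsCubeSym K) :
    ENNReal.ofReal (4 ^ n / (n.factorial : ℝ)) ≤ volumeProduct K := by
  obtain ⟨p, b, k, l, hkl, hs⟩ := hs
  have hS := CB_frame hK p b
  set S := frame p b ⁻¹' K with hSd
  have hinv : ∀ (σ : Equiv.Perm (Fin n)) (s : Fin n → ℝ), σ k = k → σ l = l → s k = s l →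
      (∀ i, |s i| = 1) → ∀ x ∈ S, (fun i => s i * x (σ i)) ∈ S := by
    intro σ s h1 h2 h3 h4 x hx
    refine hs σ s h1 h2 h3 h4 _ hx _ fun i => ?_
    rw [frame_repr, frame_repr]
  have hneg : ∀ x ∈ S, -x ∈ S := by
    intro x hx
    have h := hinv 1 (fun _ => -1) rfl rfl rfl (fun _ => by simp) x hx
    convert h using 1
    funext i
    simp
  have hSB := sb_of_symm hS hneg
  have hc : Cls k l S := by
    refine ⟨hSB, hkl, hneg, fun i hik hil x hx => ?_, fun σ h1 h2 x hx => ?_⟩
    · have h := hinv 1 (Function.update (fun _ => 1) i (-1)) rfl rfl (by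
        rw [Function.update_of_ne (Ne.symm hik), Function.update_of_ne (Ne.symm hil)]) (fun j => by
        by_cases hj : j = i
        · subst hj
          simp
        · rw [Function.update_of_ne hj]
          simp) x hx
      convert h using 1
      funext j
      by_cases hj : j = i
      · subst hj
        simp
      · rw [Function.update_of_ne hj, Function.update_of_ne hj]
        simp
    · have h := hinv σ (fun _ => 1) h1 h2 rfl (fun _ => by simp) x hx
      convert h using 1
      funext j
      simp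
  have h := hP n k l S hc
  rw [volumeProduct_eq_vp K p b, vp_symm hSB hneg]
  exact h

end Vale.Agent.P248.H432.Q
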