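import Vale.Agent.P248.H432.Q.Spec

/-!
P248, block HAHN: the polar of a section is contained in the projection of the polar.
-/

open MeasureTheory Set
open scoped ENNReal Topology

namespace Vale.Agent.P248.H432.Q

theorem ins_succ {m : ℕ} (i : Fin (m + 1)) (s : ℝ) (y : Fin m → ℝ) (j : Fin m) :
    ins i s y (i.succAbove j) = y j := by
  simp [ins]

theorem exists_ins {m : ℕ} (i : Fin (m + 1)) (x : Fin (m + 1) → ℝ) :
    x = ins i (x i) (fun j => x (i.succAbove j)) := by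
  ext k
  refine Fin.succAboveCases i ?_ (fun j => ?_) k
  · rw [ins_same]
  · rw [ins_succ]

theorem ins_zero {m : ℕ} (i : Fin (m + 1)) : ins i 0 (0 : Fin m → ℝ) = 0 := by
  ext k
  refine Fin.succAboveCases i ?_ (fun j => ?_) k
  · rw [ins_same, Pi.zero_apply]
  · rw [ins_succ, Pi.zero_apply, Pi.zero_apply]

theorem continuous_ins {m : ℕ} (i : Fin (m + 1)) (s : ℝ) :
    Continuous (fun y : Fin m → ℝ => ins i s y) := by
  refine continuous_pi fun k => ?_
  refine Fin.succAboveCases i ?_ (fun j => ?_) k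
  · simp only [ins_same]
    exact continuous_const
  · simp only [ins_succ]
    exact continuous_apply j

/-- small multiples of the unit vectors are in the body -/
theorem exists_single {m : ℕ} {K : Set (Fin (m + 1) → ℝ)} (hK : SB K) (i : Fin (m + 1)) :
    ∃ e : ℝ, 0 < e ∧ ins i e (0 : Fin m → ℝ) ∈ K ∧ ins i (-e) (0 : Fin m → ℝ) ∈ K := by
  have h0 : K ∈ 𝓝 (0 : Fin (m + 1) → ℝ) := mem_interior_iff_mem_nhds.1 hK.int0
  have hc : Continuous (fun s : ℝ => ins i s (0 : Fin m → ℝ)) := by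
    refine continuous_pi fun k => ?_
    refine Fin.succAboveCases i ?_ (fun j => ?_) k
    · simp only [ins_same]
      exact continuous_id
    · simp only [ins_succ]
      exact continuous_const
  have h1 : (fun s : ℝ => ins i s (0 : Fin m → ℝ)) ⁻¹' K ∈ 𝓝 (0 : ℝ) := by
    apply hc.continuousAt.preimage_mem_nhds
    rw [ins_zero]
    exact h0
  obtain ⟨e, he, hball⟩ := Metric.mem_nhds_iff.1 h1
  refine ⟨e / 2, by linarith, ?_, ?_⟩
  · apply hball
    rw [Metric.mem_ball, Real.dist_eq, sub_zero, abs_of_pos (by linarith)]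
    linarith
  · apply hball
    rw [Metric.mem_ball, Real.dist_eq, sub_zero, abs_neg, abs_of_pos (by linarith)]
    linarith

theorem pHahn : PHahn := by
  intro m K hK i y hy
  have hy' : ∀ z ∈ sec K i, ∑ j, z j * y j ≤ 1 := by
    intro z hz
    have := hy z hz
    simpa only [Pi.zero_apply, sub_zero] using this
  -- the crossing inequality
  have key : ∀ t₁ t₂ : ℝ, ∀ z₁ z₂ : Fin m → ℝ, ins i t₁ z₁ ∈ K → ins i (-t₂) z₂ ∈ K →
      0 < t₁ → 0 < t₂ → (∑ j, z₂ j * y j - 1) / t₂ ≤ (1 - ∑ j, z₁ j * y j) / t₁ := by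
    intro t₁ t₂ z₁ z₂ h₁ h₂ ht₁ ht₂
    have hs : 0 < t₁ + t₂ := by linarith
    have hmem : (t₂ / (t₁ + t₂)) • ins i t₁ z₁ + (t₁ / (t₁ + t₂)) • ins i (-t₂) z₂ ∈ K :=
      hK.cvx h₁ h₂ (by positivity) (by positivity) (by
        rw [← add_div, add_comm t₂ t₁, div_self hs.ne'])
    rw [ins_smul, ins_smul, ins_add] at hmem
    have e0 : t₂ / (t₁ + t₂) * t₁ + t₁ / (t₁ + t₂) * -t₂ = 0 := by
      field_simp
      ring
    rw [e0] at hmem
    have h3 := hy' _ hmem
    have e1 : ∑ j, ((t₂ / (t₁ + t₂)) • z₁ + (t₁ / (t₁ + t₂)) • z₂) j * y j =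
        t₂ / (t₁ + t₂) * ∑ j, z₁ j * y j + t₁ / (t₁ + t₂) * ∑ j, z₂ j * y j := by
      rw [Finset.mul_sum, Finset.mul_sum, ← Finset.sum_add_distrib]
      refine Finset.sum_congr rfl fun j _ => ?_
      simp only [Pi.add_apply, Pi.smul_apply, smul_eq_mul]
      ring
    rw [e1] at h3
    rw [div_le_div_iff₀ ht₂ ht₁]
    have h4 : t₂ * ∑ j, z₁ j * y j + t₁ * ∑ j, z₂ j * y j ≤ t₁ + t₂ := by
      have h5 := mul_le_mul_of_nonneg_left h3 hs.le
      have e2 : (t₁ + t₂) * (t₂ / (t₁ + t₂) * ∑ j, z₁ j * y j +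
          t₁ / (t₁ + t₂) * ∑ j, z₂ j * y j) =
          t₂ * ∑ j, z₁ j * y j + t₁ * ∑ j, z₂ j * y j := by
        field_simp
      rw [e2, mul_one] at h5
      exact h5
    linarith
  obtain ⟨e, he, hp, hm⟩ := exists_single hK i
  set A : Set ℝ := {a | ∃ (t : ℝ) (z : Fin m → ℝ), 0 < t ∧ ins i (-t) z ∈ K ∧
    a = (∑ j, z j * y j - 1) / t} with hA
  have hne : A.Nonempty := ⟨_, e, 0, he, hm, rfl⟩
  have hub : ∀ (t : ℝ) (z : Fin m → ℝ), 0 < t → ins i t z ∈ K →
      (1 - ∑ j, z j * y j) / t ∈ upperBounds A := by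
    rintro t z ht hz _ ⟨t₂, z₂, ht₂, hz₂, rfl⟩
    exact key t t₂ z z₂ hz hz₂ ht ht₂
  have hbdd : BddAbove A := ⟨_, hub e 0 he hp⟩
  refine ⟨sSup A, fun x hx => ?_⟩
  have hsum : ∑ k, (x k - (0 : Fin (m + 1) → ℝ) k) * ins i (sSup A) y k =
      x i * sSup A + ∑ j, x (i.succAbove j) * y j := by
    rw [Fin.sum_univ_succAbove _ i]
    simp only [ins_same, ins_succ, Pi.zero_apply, sub_zero]
  rw [hsum]
  have hx' := hx
  rw [exists_ins i x] at hx'
  rcases lt_trichotomy (x i) 0 with h | h | h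
  · have h1 : (∑ j, x (i.succAbove j) * y j - 1) / (-x i) ≤ sSup A := by
      refine le_csSup hbdd ⟨-x i, fun j => x (i.succAbove j), by linarith, ?_, rfl⟩
      rwa [neg_neg]
    rw [div_le_iff₀ (by linarith)] at h1
    linarith
  · rw [h] at hx' ⊢
    have h1 := hy' _ hx'
    linarith
  · have h1 : sSup A ≤ (1 - ∑ j, x (i.succAbove j) * y j) / x i :=
      csSup_le hne (hub (x i) _ h hx')
    rw [le_div_iff₀ h] at h1
    linarith

end Vale.Agent.P248.H432.Q
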