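import Vale.Agent.P248.H432.Q.Spec

/-! P248, Q1: block IVT. -/

open MeasureTheory Set Filter
open scoped ENNReal Topology

namespace Vale.Agent.P248.H432.Q

/-! ### Two measures on an interval -/

/-- the primitive of a measure -/
noncomputable def prim (ν : Measure ℝ) (x : ℝ) : ℝ := ∫ _t in (0 : ℝ)..x, (1 : ℝ) ∂ν

section prim

variable (ν : Measure ℝ) [IsFiniteMeasure ν]

theorem prim_sub {x y : ℝ} (h : x ≤ y) : prim ν y - prim ν x = ν.real (Ioc x y) := by
  unfold prim
  rw [intervalIntegral.integral_interval_sub_left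
    ((integrable_const _).intervalIntegrable) ((integrable_const _).intervalIntegrable),
    intervalIntegral.integral_const', Ioc_eq_empty (not_lt.2 h)]
  simp

omit [IsFiniteMeasure ν] in
theorem prim_zero : prim ν 0 = 0 := by
  unfold prim
  exact intervalIntegral.integral_same

theorem prim_mono : Monotone (prim ν) := by
  intro x y h
  have h1 := prim_sub ν h
  have h2 : 0 ≤ ν.real (Ioc x y) := measureReal_nonneg
  linarith

theorem continuous_prim [NullSingletonClass ν] : Continuous (prim ν) :=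
  intervalIntegral.continuous_primitive (fun _ _ => (integrable_const _).intervalIntegrable) 0

end prim

theorem two_halves (ν₁ ν₂ : Measure ℝ) [IsFiniteMeasure ν₁] [IsFiniteMeasure ν₂]
    [NullSingletonClass ν₁] [NullSingletonClass ν₂] (h₁ : ν₁ (Ioo 0 Real.pi)ᶜ = 0)
    (h₂ : ν₂ (Ioo 0 Real.pi)ᶜ = 0)
    (hpos : ∀ x y, 0 ≤ x → x < y → y ≤ Real.pi → 0 < ν₁ (Ioo x y)) :
    ∃ θ φ, 0 ≤ θ ∧ θ < φ ∧ φ ≤ Real.pi ∧ φ - θ < Real.pi ∧ 2 * ν₁ (Ioo θ φ) = ν₁ univ ∧
      2 * ν₂ (Ioo θ φ) = ν₂ univ := by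
  have hpi := Real.pi_pos
  have htot : ∀ (ν : Measure ℝ) [IsFiniteMeasure ν], ν (Ioo 0 Real.pi)ᶜ = 0 →
      prim ν Real.pi = ν.real univ := by
    intro ν _ hν
    have h1 := prim_sub ν hpi.le
    rw [prim_zero, sub_zero] at h1
    rw [h1]
    unfold Measure.real
    congr 1
    refine le_antisymm (measure_mono (subset_univ _)) ?_
    calc ν univ ≤ ν (Ioc 0 Real.pi ∪ (Ioo 0 Real.pi)ᶜ) := measure_mono fun x _ => by
          by_cases hx : x ∈ Ioo 0 Real.pi
          · exact Or.inl ⟨hx.1, hx.2.le⟩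
          · exact Or.inr hx
      _ ≤ ν (Ioc 0 Real.pi) + ν (Ioo 0 Real.pi)ᶜ := measure_union_le _ _
      _ = ν (Ioc 0 Real.pi) := by rw [hν, add_zero]
  set M₁ := ν₁.real univ with hM₁
  set M₂ := ν₂.real univ with hM₂
  have e1 : prim ν₁ Real.pi = M₁ := htot ν₁ h₁
  have e2 : prim ν₂ Real.pi = M₂ := htot ν₂ h₂
  have hlt : ∀ x y, 0 ≤ x → x < y → y ≤ Real.pi → prim ν₁ x < prim ν₁ y := by
    intro x y hx hxy hy
    have h1 := prim_sub ν₁ hxy.le
    have h2 : 0 < ν₁.real (Ioc x y) :=
      ENNReal.toReal_pos ((hpos x y hx hxy hy).trans_le (measure_mono Ioo_subset_Ioc_self)).ne'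
        (measure_ne_top _ _)
    linarith
  have hM₁pos : 0 < M₁ := by
    have h1 := hlt 0 Real.pi le_rfl hpi le_rfl
    rw [prim_zero, e1] at h1
    exact h1
  -- extension of the first primitive to a homeomorphism of the line
  let f : ℝ → ℝ := fun x => prim ν₁ x + (min x 0 + max (x - Real.pi) 0)
  have hfeq : ∀ x, 0 ≤ x → x ≤ Real.pi → f x = prim ν₁ x := by
    intro x h0 h1
    simp only [f]
    rw [min_eq_right h0, max_eq_right (by linarith)]
    ring
  have hfc : Continuous f := by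
    have := continuous_prim ν₁
    simp only [f]
    fun_prop
  have hfm : StrictMono f := by
    intro x y hxy
    simp only [f]
    have h1 := prim_mono ν₁ hxy.le
    have h2 : min x 0 ≤ min y 0 := min_le_min_right 0 hxy.le
    have h3 : max (x - Real.pi) 0 ≤ max (y - Real.pi) 0 :=
      max_le_max_right 0 (by linarith)
    rcases lt_or_ge x 0 with hx | hx
    · have h4 : min x 0 < min y 0 := by
        rw [min_eq_left hx.le]
        exact lt_min hxy hx
      linarith
    · rcases lt_or_ge Real.pi y with hy | hy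
      · have h4 : max (x - Real.pi) 0 < max (y - Real.pi) 0 := by
          rw [max_eq_left (a := y - Real.pi) (by linarith)]
          exact max_lt (by linarith) (by linarith)
        linarith
      · have h4 := hlt x y hx hxy hy
        linarith
  have hf0 : f 0 = 0 := by rw [hfeq 0 le_rfl hpi.le, prim_zero]
  have hfpi : f Real.pi = M₁ := by rw [hfeq _ hpi.le le_rfl, e1]
  have hfs : Function.Surjective f := by
    refine hfc.surjective ?_ ?_
    · have ht : Tendsto (fun x : ℝ => x + -Real.pi) atTop atTop :=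
        tendsto_atTop_add_const_right _ _ tendsto_id
      refine tendsto_atTop_mono' atTop ?_ ht
      filter_upwards [eventually_ge_atTop (0 : ℝ)] with x hx
      simp only [f]
      have h1 := prim_mono ν₁ hx
      rw [prim_zero] at h1
      rw [min_eq_right hx]
      have h2 := le_max_left (x - Real.pi) 0
      linarith
    · have ht : Tendsto (fun x : ℝ => x) atBot atBot := tendsto_id
      refine tendsto_atBot_mono' atBot ?_ ht
      filter_upwards [eventually_le_atBot (0 : ℝ)] with x hx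
      simp only [f]
      have h1 := prim_mono ν₁ hx
      rw [prim_zero] at h1
      rw [min_eq_left hx, max_eq_right (by linarith)]
      linarith
  let e : ℝ ≃o ℝ := hfm.orderIsoOfSurjective f hfs
  have he : ∀ x, e x = f x := fun x => rfl
  have hes0 : e.symm 0 = 0 := by
    rw [OrderIso.symm_apply_eq, he, hf0]
  have hespi : e.symm M₁ = Real.pi := by
    rw [OrderIso.symm_apply_eq, he, hfpi]
  let G : ℝ → ℝ := fun s => prim ν₂ (e.symm (s + M₁ / 2)) - prim ν₂ (e.symm s) - M₂ / 2
  have hGc : Continuous G := by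
    have h1 := continuous_prim ν₂
    have h2 := e.symm.continuous
    have h3 : Continuous fun s : ℝ => e.symm (s + M₁ / 2) := h2.comp (by fun_prop)
    exact ((h1.comp h3).sub (h1.comp h2)).sub continuous_const
  have hG : G 0 + G (M₁ / 2) = 0 := by
    simp only [G]
    rw [zero_add, add_halves, hes0, hespi, prim_zero, e2]
    ring
  obtain ⟨s, hs, hGs⟩ : ∃ s ∈ Icc 0 (M₁ / 2), G s = 0 := by
    have h1 := intermediate_value_uIcc (a := 0) (b := M₁ / 2) hGc.continuousOn
    rw [uIcc_of_le (show (0 : ℝ) ≤ M₁ / 2 by linarith)] at h1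
    have h2 : (0 : ℝ) ∈ uIcc (G 0) (G (M₁ / 2)) := by
      rw [mem_uIcc]
      rcases le_total (G 0) 0 with h | h
      · exact Or.inl ⟨h, by linarith⟩
      · exact Or.inr ⟨by linarith, h⟩
    obtain ⟨s, hs, hs'⟩ := h1 h2
    exact ⟨s, hs, hs'⟩
  set θ := e.symm s with hθ
  set φ := e.symm (s + M₁ / 2) with hφ
  have hθ0 : 0 ≤ θ := by
    rw [← hes0]
    exact e.symm.monotone hs.1
  have hθφ : θ < φ := e.symm.strictMono (by linarith)
  have hφpi : φ ≤ Real.pi := by
    rw [← hespi]
    exact e.symm.monotone (by linarith [hs.2])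
  have hfθ : prim ν₁ θ = s := by
    rw [← hfeq θ hθ0 (hθφ.le.trans hφpi), ← he, hθ, e.apply_symm_apply]
  have hfφ : prim ν₁ φ = s + M₁ / 2 := by
    rw [← hfeq φ (hθ0.trans hθφ.le) hφpi, ← he, hφ, e.apply_symm_apply]
  have hG' : prim ν₂ φ - prim ν₂ θ = M₂ / 2 := by
    simp only [G] at hGs
    linarith
  have hfin : ∀ (ν : Measure ℝ) [IsFiniteMeasure ν] [NullSingletonClass ν],
      prim ν φ - prim ν θ = ν.real univ / 2 → 2 * ν (Ioo θ φ) = ν univ := by
    intro ν _ _ h
    rw [prim_sub ν hθφ.le] at h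
    rw [measure_congr Ioo_ae_eq_Ioc, ← ENNReal.toReal_eq_toReal_iff' (by finiteness)
      (by finiteness), ENNReal.toReal_mul]
    unfold Measure.real at h
    rw [h, ENNReal.toReal_ofNat]
    ring
  refine ⟨θ, φ, hθ0, hθφ, hφpi, ?_, hfin ν₁ ?_, hfin ν₂ hG'⟩
  · by_contra hcon
    have h1 : θ = 0 := by linarith
    have h2 : φ = Real.pi := by linarith
    rw [h1, prim_zero] at hfθ
    rw [h2, e1] at hfφ
    linarith
  · rw [hfθ, hfφ, ← hM₁]
    ring

/-! ### The angle -/

/-- the angle modulo `π`, in `(0, π)` -/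
noncomputable def ang {n : ℕ} (a b : Fin n) (z : Fin n → ℝ) : ℝ :=
  Real.pi / 2 - Real.arctan (z a / z b)

theorem measurable_ang {n : ℕ} (a b : Fin n) : Measurable (ang a b) := by
  unfold ang
  fun_prop

theorem ang_mem {n : ℕ} (a b : Fin n) (z : Fin n → ℝ) : ang a b z ∈ Ioo 0 Real.pi := by
  unfold ang
  have h1 := Real.neg_pi_div_two_lt_arctan (z a / z b)
  have h2 := Real.arctan_lt_pi_div_two (z a / z b)
  constructor <;> linarith

theorem ang_spec {n : ℕ} (a b : Fin n) {z : Fin n → ℝ} (hz : z b ≠ 0) :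
    ∃ c : ℝ, c ≠ 0 ∧ z a = c * Real.cos (ang a b z) ∧ z b = c * Real.sin (ang a b z) := by
  obtain ⟨h0, h1⟩ := ang_mem a b z
  have hsin : 0 < Real.sin (ang a b z) := Real.sin_pos_of_pos_of_lt_pi h0 h1
  refine ⟨z b / Real.sin (ang a b z), div_ne_zero hz hsin.ne', ?_, ?_⟩
  · have h2 : z a / z b = Real.cos (ang a b z) / Real.sin (ang a b z) := by
      unfold ang
      rw [Real.cos_pi_div_two_sub, Real.sin_pi_div_two_sub, ← Real.tan_eq_sin_div_cos,
        Real.tan_arctan]
    rw [div_eq_div_iff hz hsin.ne'] at h2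
    rw [div_mul_eq_mul_div, eq_div_iff hsin.ne', h2, mul_comm]
  · rw [div_mul_cancel₀ _ hsin.ne']

theorem mem_dc_iff {n : ℕ} (a b : Fin n) {z : Fin n → ℝ} (hz : z b ≠ 0) {θ φ : ℝ}
    (h0 : 0 ≤ θ) (h1 : θ ≤ φ) (h2 : φ ≤ Real.pi) :
    z ∈ dc a b θ φ ↔ ang a b z ∈ Ioo θ φ := by
  obtain ⟨c, hc, ha, hb⟩ := ang_spec a b hz
  obtain ⟨h3, h4⟩ := ang_mem a b z
  set ψ := ang a b z with hψ
  have h5 : (z b * Real.cos θ - z a * Real.sin θ) * (z a * Real.sin φ - z b * Real.cos φ) =
      c ^ 2 * (Real.sin (ψ - θ) * Real.sin (φ - ψ)) := by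
    rw [Real.sin_sub, Real.sin_sub]
    rw [ha, hb]
    ring
  have h6 : z ∈ dc a b θ φ ↔ 0 < Real.sin (ψ - θ) * Real.sin (φ - ψ) := by
    unfold dc
    rw [Set.mem_ofPred_eq, h5]
    have hc2 : 0 < c ^ 2 := by positivity
    exact mul_pos_iff_of_pos_left hc2
  rw [h6]
  constructor
  · intro h
    rcases lt_or_ge θ ψ with h7 | h7
    · refine ⟨h7, ?_⟩
      by_contra h8
      push Not at h8
      have h9 : 0 ≤ Real.sin (ψ - θ) :=
        Real.sin_nonneg_of_nonneg_of_le_pi (by linarith) (by linarith)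
      have h10 : Real.sin (φ - ψ) ≤ 0 :=
        Real.sin_nonpos_of_nonpos_of_neg_pi_le (by linarith) (by linarith)
      have h11 := mul_nonpos_of_nonneg_of_nonpos h9 h10
      linarith
    · exfalso
      have h9 : Real.sin (ψ - θ) ≤ 0 :=
        Real.sin_nonpos_of_nonpos_of_neg_pi_le (by linarith) (by linarith)
      have h10 : 0 ≤ Real.sin (φ - ψ) :=
        Real.sin_nonneg_of_nonneg_of_le_pi (by linarith) (by linarith)
      have h11 := mul_nonpos_of_nonpos_of_nonneg h9 h10
      linarith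
  · rintro ⟨h7, h8⟩
    exact mul_pos (Real.sin_pos_of_pos_of_lt_pi (by linarith) (by linarith))
      (Real.sin_pos_of_pos_of_lt_pi (by linarith) (by linarith))

theorem volume_hyperplane {n : ℕ} {a b : Fin n} (hab : a ≠ b) (c : ℝ) :
    volume {z : Fin n → ℝ | z a = c * z b} = 0 := by
  let s : Submodule ℝ (Fin n → ℝ) :=
    LinearMap.ker (LinearMap.proj a - c • LinearMap.proj b : (Fin n → ℝ) →ₗ[ℝ] ℝ)
  have hs : s ≠ ⊤ := by
    intro h
    have h1 : (Pi.single a 1 : Fin n → ℝ) ∈ s := by rw [h]; trivial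
    rw [LinearMap.mem_ker] at h1
    simp [hab.symm] at h1
  have h2 := Measure.addHaar_submodule (volume : Measure (Fin n → ℝ)) s hs
  refine measure_mono_null ?_ h2
  intro z hz
  show z ∈ s
  rw [LinearMap.mem_ker]
  simp only [LinearMap.sub_apply, LinearMap.smul_apply, LinearMap.coe_proj, Function.eval,
    smul_eq_mul]
  have : z a = c * z b := hz
  rw [this, sub_self]

theorem volume_coord {n : ℕ} {a b : Fin n} (hab : a ≠ b) :
    volume {z : Fin n → ℝ | z b = 0} = 0 := by
  have h := volume_hyperplane hab.symm 0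
  simpa using h

section body

variable {n : ℕ} (K : Set (Fin n → ℝ)) (a b : Fin n)

/-- the distribution of the angle -/
noncomputable def dist (K : Set (Fin n → ℝ)) (a b : Fin n) : Measure ℝ :=
  (volume.restrict K).map (ang a b)

theorem dist_apply {s : Set ℝ} (hs : MeasurableSet s) :
    dist K a b s = volume (K ∩ ang a b ⁻¹' s) := by
  unfold dist
  rw [Measure.map_apply (measurable_ang a b) hs,
    Measure.restrict_apply (measurable_ang a b hs), inter_comm]

variable {K a b}

theorem dist_Ioo (hab : a ≠ b) {θ φ : ℝ} (h0 : 0 ≤ θ) (h1 : θ ≤ φ) (h2 : φ ≤ Real.pi) :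
    dist K a b (Ioo θ φ) = volume (K ∩ dc a b θ φ) := by
  rw [dist_apply _ _ _ measurableSet_Ioo]
  refine measure_congr ?_
  have h3 : ∀ᵐ z : Fin n → ℝ, z b ≠ 0 := by
    rw [ae_iff]
    simpa using volume_coord hab
  filter_upwards [h3] with z hz
  apply propext
  have h4 := mem_dc_iff a b hz h0 h1 h2
  show (z ∈ K ∧ ang a b z ∈ Ioo θ φ) ↔ (z ∈ K ∧ z ∈ dc a b θ φ)
  rw [h4]

theorem null_dist (hab : a ≠ b) : NullSingletonClass (dist K a b) where
  measure_singleton := by
    intro x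
    rw [dist_apply _ _ _ (measurableSet_singleton x)]
    refine measure_mono_null (t := {z : Fin n → ℝ | z b = 0} ∪
      {z : Fin n → ℝ | z a = Real.tan (Real.pi / 2 - x) * z b}) ?_ ?_
    · rintro z ⟨_, hz⟩
      have hz' : ang a b z = x := hz
      by_cases h : z b = 0
      · exact Or.inl h
      · refine Or.inr ?_
        show z a = Real.tan (Real.pi / 2 - x) * z b
        rw [← hz']
        unfold ang
        rw [sub_sub_cancel, Real.tan_arctan, div_mul_cancel₀ _ h]
    · rw [measure_union_null_iff]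
      exact ⟨volume_coord hab, volume_hyperplane hab _⟩

theorem dist_compl : dist K a b (Ioo 0 Real.pi)ᶜ = 0 := by
  rw [dist_apply _ _ _ measurableSet_Ioo.compl]
  have : ang a b ⁻¹' (Ioo 0 Real.pi)ᶜ = ∅ := by
    rw [eq_empty_iff_forall_notMem]
    intro z hz
    exact hz (ang_mem a b z)
  rw [this, inter_empty, measure_empty]

theorem dist_univ : dist K a b univ = volume K := by
  rw [dist_apply _ _ _ MeasurableSet.univ, preimage_univ, inter_univ]

theorem finite_dist (hK : SB K) : IsFiniteMeasure (dist K a b) :=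
  ⟨by rw [dist_univ]; exact hK.cpt.measure_lt_top⟩

theorem dist_pos (hK : SB K) (hab : a ≠ b) {x y : ℝ} (h0 : 0 ≤ x) (h1 : x < y)
    (h2 : y ≤ Real.pi) : 0 < dist K a b (Ioo x y) := by
  rw [dist_Ioo hab h0 h1.le h2]
  have hopen : IsOpen (interior K ∩ dc a b x y) := by
    refine isOpen_interior.inter ?_
    exact isOpen_lt continuous_const (by fun_prop)
  have hne : (interior K ∩ dc a b x y).Nonempty := by
    set γ := (x + y) / 2 with hγ
    let p : ℝ → (Fin n → ℝ) := fun ε =>
      ε • (Real.cos γ • (Pi.single a (1 : ℝ) : Fin n → ℝ) +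
        Real.sin γ • (Pi.single b (1 : ℝ) : Fin n → ℝ))
    have hp : Continuous p := by fun_prop
    have hp0 : p 0 = 0 := by simp [p]
    have h3 : ∀ᶠ ε in 𝓝 (0 : ℝ), p ε ∈ interior K := by
      refine hp.continuousAt.eventually_mem ?_
      rw [hp0]
      exact isOpen_interior.mem_nhds hK.int0
    have h4 : ∀ᶠ ε in 𝓝[>] (0 : ℝ), p ε ∈ interior K := h3.filter_mono nhdsWithin_le_nhds
    obtain ⟨ε, hε1, hε2⟩ := (h4.and self_mem_nhdsWithin).exists
    have hε : 0 < ε := hε2
    refine ⟨p ε, hε1, ?_⟩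
    have ea : p ε a = ε * Real.cos γ := by
      simp [p, hab]
    have eb : p ε b = ε * Real.sin γ := by
      simp [p, hab.symm]
    have h5 : (p ε b * Real.cos x - p ε a * Real.sin x) *
        (p ε a * Real.sin y - p ε b * Real.cos y) =
        ε ^ 2 * (Real.sin (γ - x) * Real.sin (y - γ)) := by
      rw [Real.sin_sub, Real.sin_sub, ea, eb]
      ring
    unfold dc
    rw [Set.mem_ofPred_eq, h5]
    have h6 : 0 < Real.sin (γ - x) :=
      Real.sin_pos_of_pos_of_lt_pi (by rw [hγ]; linarith) (by rw [hγ]; linarith)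
    have h7 : 0 < Real.sin (y - γ) :=
      Real.sin_pos_of_pos_of_lt_pi (by rw [hγ]; linarith) (by rw [hγ]; linarith)
    positivity
  exact (hopen.measure_pos volume hne).trans_le
    (measure_mono (inter_subset_inter_left _ interior_subset))

end body

theorem pIvt : PIvt := by
  intro n₁ n₂ K₁ K₂ a₁ b₁ a₂ b₂ hab₁ hab₂ hK₁ hK₂
  have := finite_dist (a := a₁) (b := b₁) hK₁
  have := finite_dist (a := a₂) (b := b₂) hK₂
  have := null_dist (K := K₁) hab₁
  have := null_dist (K := K₂) hab₂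
  obtain ⟨θ, φ, h0, h1, h2, h3, h4, h5⟩ := two_halves (dist K₁ a₁ b₁) (dist K₂ a₂ b₂)
    dist_compl dist_compl fun x y hx hxy hy => dist_pos hK₁ hab₁ hx hxy hy
  refine ⟨θ, φ, (Real.sin_pos_of_pos_of_lt_pi (by linarith) h3).ne', ?_, ?_⟩
  · rw [← dist_Ioo hab₁ h0 h1.le h2, h4, dist_univ]
  · rw [← dist_Ioo hab₂ h0 h1.le h2, h5, dist_univ]

end Vale.Agent.P248.H432.Q
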