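import Vale.Agent.P248.H432.Q.Spec

/-! P248, Q1: block MAIN. -/

open MeasureTheory Set
open scoped ENNReal

namespace Vale.Agent.P248.H432.Q

theorem flp_flp {n : ℕ} (J : Finset (Fin n)) (x : Fin n → ℝ) : flp J (flp J x) = x := by
  funext i
  by_cases h : i ∈ J <;> simp [flp, h]

theorem continuous_flp {n : ℕ} (J : Finset (Fin n)) : Continuous (flp J) := by
  refine continuous_pi fun i => ?_
  by_cases h : i ∈ J
  · simp only [flp, h, ↓reduceIte]
    exact (continuous_apply i).neg
  · simp only [flp, h, ↓reduceIte]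
    exact continuous_apply i

/-- `flp J` as a homeomorphism -/
def flpH {n : ℕ} (J : Finset (Fin n)) : (Fin n → ℝ) ≃ₜ (Fin n → ℝ) where
  toFun := flp J
  invFun := flp J
  left_inv := flp_flp J
  right_inv := flp_flp J
  continuous_toFun := continuous_flp J
  continuous_invFun := continuous_flp J

theorem flp_add {n : ℕ} (J : Finset (Fin n)) (a b : ℝ) (x y : Fin n → ℝ) :
    flp J (a • x + b • y) = a • flp J x + b • flp J y := by
  funext i
  by_cases h : i ∈ J <;> simp [flp, h]
  ring

theorem flp_zero {n : ℕ} (J : Finset (Fin n)) : flp J (0 : Fin n → ℝ) = 0 := by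
  funext i
  by_cases h : i ∈ J <;> simp [flp, h]

theorem SB.flp {n : ℕ} {K : Set (Fin n → ℝ)} (hK : SB K) (J : Finset (Fin n)) :
    SB (Q.flp J ⁻¹' K) where
  cpt := (flpH J).isCompact_preimage.2 hK.cpt
  cvx := by
    intro x hx y hy a b ha hb hab
    simp only [mem_preimage] at hx hy ⊢
    rw [flp_add]
    exact hK.cvx hx hy ha hb hab
  int0 := by
    have h := (flpH J).preimage_interior K
    change (0 : Fin n → ℝ) ∈ interior ((flpH J) ⁻¹' K)
    rw [← h]
    change Q.flp J 0 ∈ interior K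
    rw [flp_zero]
    exact hK.int0

theorem sec_flp {m : ℕ} (K : Set (Fin (m + 1) → ℝ)) (J : Finset (Fin (m + 1))) (i : Fin (m + 1)) :
    ∃ J' : Finset (Fin m), sec (flp J ⁻¹' K) i = flp J' ⁻¹' (sec K i) := by
  refine ⟨Finset.univ.filter fun j => i.succAbove j ∈ J, ?_⟩
  ext y
  simp only [sec, mem_setOf_eq, mem_preimage]
  have e : flp J (ins i 0 y) =
      ins i 0 (flp (Finset.univ.filter fun j => i.succAbove j ∈ J) y) := by
    funext k
    refine Fin.succAboveCases i ?_ (fun j => ?_) k
    · simp [flp, ins]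
    · simp [flp, ins]
  rw [e]

theorem SB.vol_pos {n : ℕ} {K : Set (Fin n → ℝ)} (hK : SB K) : 0 < (volume K).toReal := by
  refine ENNReal.toReal_pos ?_ hK.cpt.measure_lt_top.ne
  exact (Measure.measure_pos_of_nonempty_interior _ ⟨0, hK.int0⟩).ne'

theorem SB.polar_lt_top {n : ℕ} {K : Set (Fin n → ℝ)} (hK : SB K) :
    volume (polarP K 0) < ∞ :=
  (polarP_isBounded hK.int0).measure_lt_top

theorem SB.sec {m : ℕ} {K : Set (Fin (m + 1) → ℝ)} (hK : SB K) (i : Fin (m + 1)) :
    SB (Q.sec K i) := by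
  have hc : Continuous fun y : Fin m → ℝ => ins i 0 y := by
    refine continuous_pi fun k => ?_
    refine Fin.succAboveCases i ?_ (fun j => ?_) k
    · simp only [ins, Fin.insertNth_apply_same]
      exact continuous_const
    · simp only [ins, Fin.insertNth_apply_succAbove]
      exact continuous_apply j
  have h0 : ins i 0 (0 : Fin m → ℝ) = 0 := by
    funext k
    refine Fin.succAboveCases i ?_ (fun j => ?_) k <;> simp [ins]
  refine ⟨?_, ?_, ?_⟩
  · have hcl : IsClosed (Q.sec K i) := hK.cpt.isClosed.preimage hc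
    refine (Metric.isCompact_iff_isClosed_bounded).2 ⟨hcl, ?_⟩
    obtain ⟨M, hM⟩ := isBounded_iff_forall_norm_le.mp hK.cpt.isBounded
    refine isBounded_iff_forall_norm_le.mpr ⟨max M 0, fun y hy => ?_⟩
    rw [pi_norm_le_iff_of_nonneg (le_max_right _ _)]
    intro j
    have h1 := norm_le_pi_norm (ins i 0 y) (i.succAbove j)
    have h2 := hM _ hy
    have e : ins i 0 y (i.succAbove j) = y j := by simp [ins]
    rw [e] at h1
    exact (h1.trans h2).trans (le_max_left _ _)
  · intro x hx y hy a b ha hb hab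
    have h := hK.cvx hx hy ha hb hab
    rw [ins_smul, ins_smul, ins_add, mul_zero, mul_zero, add_zero] at h
    exact h
  · rw [mem_interior_iff_mem_nhds]
    have h1 := mem_interior_iff_mem_nhds.1 hK.int0
    rw [← h0] at h1
    exact hc.continuousAt.preimage_mem_nhds h1

theorem box_mem {m : ℕ} {K : Set (Fin (m + 1) → ℝ)} (hC : PCone) (hK : SB K) (hE : Equi K)
    {x : Fin (m + 1) → ℝ} (hx : x ∈ K) :
    2 * ∑ i, |x i| * (volume (sec K i)).toReal ≤ (m + 1) * (volume K).toReal := by
  classical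
  set J : Finset (Fin (m + 1)) := Finset.univ.filter fun i => x i < 0 with hJ
  have hx' : ∀ i, flp J x i = |x i| := by
    intro i
    by_cases h : x i < 0
    · simp [flp, hJ, h, abs_of_neg h]
    · simp [flp, hJ, h, abs_of_nonneg (not_lt.1 h)]
  have hmem : flp J x ∈ flp J ⁻¹' K := by
    simp only [mem_preimage, flp_flp]
    exact hx
  have h1 := hC m _ (hK.flp J) _ hmem fun i => by
    rw [hx']
    exact abs_nonneg _
  have h2 : ∀ i, 2 ^ m * volume (pos (sec (flp J ⁻¹' K) i)) = volume (sec K i) := by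
    intro i
    obtain ⟨J', e⟩ := sec_flp K J i
    rw [e]
    exact hE.2 i J'
  have h3 : ∑ i, ENNReal.ofReal (|x i|) * volume (sec K i) * 2 ≤
      ((m : ℝ≥0∞) + 1) * volume K := by
    calc ∑ i, ENNReal.ofReal (|x i|) * volume (sec K i) * 2
        = 2 ^ (m + 1) * ∑ i, ENNReal.ofReal (flp J x i) *
            volume (pos (sec (flp J ⁻¹' K) i)) := by
          rw [Finset.mul_sum]
          refine Finset.sum_congr rfl fun i _ => ?_
          rw [hx', ← h2 i]
          ring
      _ ≤ 2 ^ (m + 1) * (((m : ℝ≥0∞) + 1) * volume (pos (flp J ⁻¹' K))) := by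
          gcongr
      _ = ((m : ℝ≥0∞) + 1) * (2 ^ (m + 1) * volume (pos (flp J ⁻¹' K))) := by ring
      _ = _ := by rw [hE.1 J]
  have hKt := hK.cpt.measure_lt_top (μ := volume)
  have h4 := ENNReal.toReal_mono (by
    exact ENNReal.mul_ne_top (by exact_mod_cast ENNReal.natCast_ne_top (m + 1)) hKt.ne) h3
  rw [ENNReal.toReal_sum (fun i _ => ENNReal.mul_ne_top (ENNReal.mul_ne_top ENNReal.ofReal_ne_top
    (hK.sec i).cpt.measure_lt_top.ne) (by norm_num))] at h4
  rw [ENNReal.toReal_mul] at h4
  have e1 : ((m : ℝ≥0∞) + 1).toReal = (m : ℝ) + 1 := by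
    rw [ENNReal.toReal_add (ENNReal.natCast_ne_top m) (by norm_num), ENNReal.toReal_natCast,
      ENNReal.toReal_one]
  rw [e1] at h4
  refine le_trans (le_of_eq ?_) h4
  rw [Finset.mul_sum]
  refine Finset.sum_congr rfl fun i _ => ?_
  rw [ENNReal.toReal_mul, ENNReal.toReal_mul, ENNReal.toReal_ofReal (abs_nonneg _)]
  simp only [ENNReal.toReal_ofNat]
  ring

theorem pMain (hC : PCone) (hM : PMink) (hH : PHahn) : PMain := by
  intro m K hK hE hS
  set V := (volume K).toReal with hV
  set v : Fin (m + 1) → ℝ := fun i => (volume (sec K i)).toReal with hv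
  have hV0 : 0 < V := hK.vol_pos
  have hv0 : ∀ i, 0 < v i := fun i => (hK.sec i).vol_pos
  have hn : (0 : ℝ) < (m : ℝ) + 1 := by positivity
  set w : Fin (m + 1) → ℝ := fun i => 2 * v i / ((m + 1) * V) with hw
  have hw0 : ∀ i, 0 ≤ w i := fun i => by
    have := (hv0 i).le
    positivity
  have hbox : {y : Fin (m + 1) → ℝ | ∀ i, |y i| ≤ w i} ⊆ polarP K 0 := by
    intro y hy x hx
    have h1 := box_mem hC hK hE hx
    calc ∑ i, (x i - (0 : Fin (m + 1) → ℝ) i) * y i ≤ ∑ i, |x i| * w i := by
          refine Finset.sum_le_sum fun i _ => ?_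
          rw [Pi.zero_apply, sub_zero]
          calc x i * y i ≤ |x i * y i| := le_abs_self _
            _ = |x i| * |y i| := abs_mul _ _
            _ ≤ |x i| * w i := by
              have := hy i
              gcongr
      _ = (2 * ∑ i, |x i| * v i) / ((m + 1) * V) := by
          rw [Finset.mul_sum, Finset.sum_div]
          refine Finset.sum_congr rfl fun i _ => ?_
          simp only [hw]
          ring
      _ ≤ 1 := by
          rw [div_le_one (by positivity)]
          exact h1
  have hL : IsCompact (polarP K 0) :=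
    Metric.isCompact_iff_isClosed_bounded.2 ⟨polarP_isClosed K 0, polarP_isBounded hK.int0⟩
  have h2 := hM m (polarP K 0) w hL (polarP_convex K 0) hw0 hbox
  set V' := (volume (polarP K 0)).toReal with hV'
  set v' : Fin (m + 1) → ℝ := fun i => (volume (polarP (sec K i) 0)).toReal with hv'
  have h3 : ∑ i, ENNReal.ofReal (2 * w i) * volume (polarP (sec K i) 0) ≤
      ((m : ℝ≥0∞) + 1) * volume (polarP K 0) := by
    refine le_trans (Finset.sum_le_sum fun i _ => ?_) h2
    exact mul_le_mul_right (measure_mono (hH m K hK i)) _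
  have h4 := ENNReal.toReal_mono (by
    exact ENNReal.mul_ne_top (by exact_mod_cast ENNReal.natCast_ne_top (m + 1))
      hK.polar_lt_top.ne) h3
  rw [ENNReal.toReal_sum (fun i _ => ENNReal.mul_ne_top ENNReal.ofReal_ne_top
    (hK.sec i).polar_lt_top.ne), ENNReal.toReal_mul] at h4
  have e1 : ((m : ℝ≥0∞) + 1).toReal = (m : ℝ) + 1 := by
    rw [ENNReal.toReal_add (ENNReal.natCast_ne_top m) (by norm_num), ENNReal.toReal_natCast,
      ENNReal.toReal_one]
  rw [e1] at h4
  have h5 : ∀ i, 4 ^ m / (m.factorial : ℝ) ≤ v i * v' i := by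
    intro i
    have h6 := ENNReal.toReal_mono (ENNReal.mul_ne_top (hK.sec i).cpt.measure_lt_top.ne
      (hK.sec i).polar_lt_top.ne) (hS i)
    rwa [ENNReal.toReal_ofReal (by positivity), ENNReal.toReal_mul] at h6
  have h7 : ∑ i, 4 * (v i * v' i) ≤ ((m : ℝ) + 1) ^ 2 * (V * V') := by
    have h8 : ∑ i, (ENNReal.ofReal (2 * w i) * volume (polarP (sec K i) 0)).toReal =
        (∑ i, 4 * (v i * v' i)) / ((m + 1) * V) := by
      rw [Finset.sum_div]
      refine Finset.sum_congr rfl fun i _ => ?_
      rw [ENNReal.toReal_mul, ENNReal.toReal_ofReal (by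
        have := hw0 i
        positivity)]
      simp only [hw, hv']
      ring
    rw [h8, div_le_iff₀ (by positivity)] at h4
    nlinarith [h4]
  have h9 : ((m : ℝ) + 1) * (4 * (4 ^ m / (m.factorial : ℝ))) ≤
      ((m : ℝ) + 1) ^ 2 * (V * V') := by
    refine le_trans ?_ h7
    calc ((m : ℝ) + 1) * (4 * (4 ^ m / (m.factorial : ℝ)))
        = ∑ _i : Fin (m + 1), 4 * (4 ^ m / (m.factorial : ℝ)) := by
          rw [Finset.sum_const, Finset.card_univ, Fintype.card_fin, nsmul_eq_mul]
          push_cast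
          ring
      _ ≤ _ := Finset.sum_le_sum fun i _ => by
          have := h5 i
          linarith
  have h10 : 4 ^ (m + 1) / ((m + 1).factorial : ℝ) ≤ V * V' := by
    have hf : ((m + 1).factorial : ℝ) = ((m : ℝ) + 1) * m.factorial := by
      rw [Nat.factorial_succ]
      push_cast
      ring
    have hm : (0 : ℝ) < m.factorial := by positivity
    rw [hf, div_le_iff₀ (by positivity)]
    have e2 : ((m : ℝ) + 1) * (4 * (4 ^ m / (m.factorial : ℝ))) =
        ((m : ℝ) + 1) * 4 ^ (m + 1) / m.factorial := by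
      rw [pow_succ]
      ring
    rw [e2, div_le_iff₀ hm] at h9
    have h11 : ((m : ℝ) + 1) * 4 ^ (m + 1) ≤
        ((m : ℝ) + 1) * (V * V' * (((m : ℝ) + 1) * m.factorial)) := by
      nlinarith [h9]
    exact le_of_mul_le_mul_left h11 hn
  unfold Mah
  rw [← ENNReal.ofReal_toReal hK.cpt.measure_lt_top.ne,
    ← ENNReal.ofReal_toReal hK.polar_lt_top.ne, ← ENNReal.ofReal_mul ENNReal.toReal_nonneg]
  exact ENNReal.ofReal_le_ofReal h10

end Vale.Agent.P248.H432.Q
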