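import Vale.Agent.P248.H432.Q.Spec

/-!
P248, block MINK: if `L` contains the box of half sides `w i`, then `∑ 2 w i |sh L i| ≤ n |L|`.
-/

open MeasureTheory Set
open scoped ENNReal Topology Pointwise

namespace Vale.Agent.P248.H432.Q

theorem mk_succ {m : ℕ} (i : Fin (m + 1)) (s : ℝ) (y : Fin m → ℝ) (j : Fin m) :
    ins i s y (i.succAbove j) = y j := by
  simp [ins]

theorem mk_ins {m : ℕ} (i : Fin (m + 1)) (x : Fin (m + 1) → ℝ) :
    ins i (x i) (fun j => x (i.succAbove j)) = x := by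
  ext k
  refine Fin.succAboveCases i ?_ (fun j => ?_) k
  · rw [ins_same]
  · rw [mk_succ]

/-- `M` thickened by `[-s, s]` in the direction `i` -/
def thk {m : ℕ} (M : Set (Fin (m + 1) → ℝ)) (i : Fin (m + 1)) (s : ℝ) : Set (Fin (m + 1) → ℝ) :=
  (fun p : (Fin (m + 1) → ℝ) × ℝ => p.1 + p.2 • (Pi.single i 1 : Fin (m + 1) → ℝ)) ''
    (M ×ˢ Icc (-s) s)

theorem thk_compact {m : ℕ} {M : Set (Fin (m + 1) → ℝ)} (hM : IsCompact M) (i : Fin (m + 1))
    (s : ℝ) : IsCompact (thk M i s) := by
  refine (hM.prod isCompact_Icc).image ?_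
  fun_prop

theorem subset_thk {m : ℕ} (M : Set (Fin (m + 1) → ℝ)) (i : Fin (m + 1)) {s : ℝ} (hs : 0 ≤ s) :
    M ⊆ thk M i s := by
  intro x hx
  exact ⟨(x, 0), ⟨hx, ⟨by linarith, hs⟩⟩, by simp⟩

theorem ins_mem_thk {m : ℕ} {M : Set (Fin (m + 1) → ℝ)} {i : Fin (m + 1)} {s t r : ℝ}
    {y : Fin m → ℝ} (h : ins i t y ∈ M) (h1 : -s ≤ r) (h2 : r ≤ s) : ins i (t + r) y ∈ thk M i s :=
  ⟨(ins i t y, r), ⟨h, h1, h2⟩, ins_add_smul_single i t r y⟩

/-- a compact set of numbers, thickened -/
theorem thick_one {A A' : Set ℝ} (hA : IsCompact A) (hne : A.Nonempty) {s : ℝ} (hs : 0 ≤ s)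
    (h : ∀ a ∈ A, ∀ r, -s ≤ r → r ≤ s → a + r ∈ A') :
    volume A + ENNReal.ofReal (2 * s) ≤ volume A' := by
  obtain ⟨a, ha, hmin⟩ := hA.exists_isLeast hne
  obtain ⟨b, hb, hmax⟩ := hA.exists_isGreatest hne
  have hab : a ≤ b := hmin hb
  have h1 : A ⊆ Icc a b := fun x hx => ⟨hmin hx, hmax hx⟩
  have h2 : Ico (a - s) a ∪ (A ∪ Ioc b (b + s)) ⊆ A' := by
    rintro x (hx | hx | hx)
    · have := h a ha (x - a) (by linarith [hx.1]) (by linarith [hx.2])
      rwa [add_sub_cancel] at this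
    · have := h x hx 0 (by linarith) hs
      rwa [add_zero] at this
    · have := h b hb (x - b) (by linarith [hx.1]) (by linarith [hx.2])
      rwa [add_sub_cancel] at this
  have hd1 : Disjoint A (Ioc b (b + s)) := by
    rw [Set.disjoint_left]
    intro x hx hx'
    exact absurd (h1 hx).2 (not_le.2 hx'.1)
  have hd2 : Disjoint (Ico (a - s) a) (A ∪ Ioc b (b + s)) := by
    rw [Set.disjoint_left]
    rintro x hx (hx' | hx')
    · exact absurd (h1 hx').1 (not_le.2 hx.2)
    · exact absurd (hab.trans hx'.1.le) (not_le.2 hx.2)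
  calc volume A + ENNReal.ofReal (2 * s)
      = ENNReal.ofReal s + (volume A + ENNReal.ofReal s) := by
        have e : ENNReal.ofReal (2 * s) = ENNReal.ofReal s + ENNReal.ofReal s := by
          rw [← ENNReal.ofReal_add hs hs, two_mul]
        rw [e]
        ring
    _ = volume (Ico (a - s) a ∪ (A ∪ Ioc b (b + s))) := by
        rw [measure_union hd2 (hA.measurableSet.union measurableSet_Ioc),
          measure_union hd1 measurableSet_Ioc, Real.volume_Ico, Real.volume_Ioc]
        congr 2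
        · ring
        · congr 1
          ring_nf
    _ ≤ volume A' := measure_mono h2

theorem sh_compact {m : ℕ} {M : Set (Fin (m + 1) → ℝ)} (hM : IsCompact M) (i : Fin (m + 1)) :
    IsCompact (sh M i) := by
  have e : sh M i = (fun x : Fin (m + 1) → ℝ => fun j => x (i.succAbove j)) '' M := by
    ext y
    constructor
    · rintro ⟨s, hs⟩
      refine ⟨ins i s y, hs, ?_⟩
      funext j
      exact mk_succ i s y j
    · rintro ⟨x, hx, rfl⟩
      refine ⟨x i, ?_⟩
      rw [mk_ins]
      exact hx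
  rw [e]
  exact hM.image (continuous_pi fun j => continuous_apply _)

/-- the volume of the thickened body -/
theorem thk_volume {m : ℕ} {M : Set (Fin (m + 1) → ℝ)} (hM : IsCompact M) (i : Fin (m + 1))
    {s : ℝ} (hs : 0 ≤ s) :
    volume M + ENNReal.ofReal (2 * s) * volume (sh M i) ≤ volume (thk M i s) := by
  have hT := thk_compact hM i s
  have hS := sh_compact hM i
  have hmeas : ∀ {S : Set (Fin (m + 1) → ℝ)}, IsCompact S →
      Measurable fun y : Fin m → ℝ => volume {s : ℝ | ins i s y ∈ S} := by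
    intro S hS
    have h2 : MeasurableSet
        ((MeasurableEquiv.piFinSuccAbove (fun _ : Fin (m + 1) => ℝ) i).symm ⁻¹' S) :=
      (MeasurableEquiv.piFinSuccAbove (fun _ : Fin (m + 1) => ℝ) i).symm.measurable
        hS.measurableSet
    exact measurable_measure_prodMk_right h2
  have h1 : ENNReal.ofReal (2 * s) * volume (sh M i) =
      ∫⁻ y, (sh M i).indicator (fun _ => ENNReal.ofReal (2 * s)) y := by
    rw [lintegral_indicator_const hS.measurableSet]
  rw [h1, volume_eq_lintegral_fiber i hM.measurableSet, volume_eq_lintegral_fiber i hT.measurableSet,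
    ← lintegral_add_left (hmeas hM)]
  refine lintegral_mono fun y => ?_
  by_cases hy : y ∈ sh M i
  · rw [indicator_of_mem hy]
    exact thick_one (isCompact_fiber i hM y) hy hs fun a ha r h2 h3 => ins_mem_thk ha h2 h3
  · rw [indicator_of_notMem hy, add_zero]
    exact measure_mono fun t ht => subset_thk M i hs ht

theorem sh_mono {m : ℕ} {M M' : Set (Fin (m + 1) → ℝ)} (h : M ⊆ M') (i : Fin (m + 1)) :
    sh M i ⊆ sh M' i := by
  rintro y ⟨s, hs⟩
  exact ⟨s, h hs⟩

/-- all coordinates of `J` thickened -/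
theorem exists_thick {m : ℕ} {L : Set (Fin (m + 1) → ℝ)} (hL : IsCompact L)
    {s : Fin (m + 1) → ℝ} (hs : ∀ i, 0 ≤ s i) (J : Finset (Fin (m + 1))) :
    ∃ M : Set (Fin (m + 1) → ℝ), IsCompact M ∧ L ⊆ M ∧
      volume L + ∑ i ∈ J, ENNReal.ofReal (2 * s i) * volume (sh L i) ≤ volume M ∧
      ∀ x ∈ M, ∃ z : Fin (m + 1) → ℝ, (∀ i, |z i| ≤ s i) ∧ x - z ∈ L ∧ ∀ i ∉ J, z i = 0 := by
  classical
  induction J using Finset.induction_on with
  | empty =>
    refine ⟨L, hL, Subset.refl _, by simp, fun x hx => ⟨0, fun i => ?_, by simpa using hx, ?_⟩⟩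
    · simpa using hs i
    · intro i _
      rfl
  | insert a J ha ih =>
    obtain ⟨M, h1, h2, h3, h4⟩ := ih
    refine ⟨thk M a (s a), thk_compact h1 a _, h2.trans (subset_thk M a (hs a)), ?_, ?_⟩
    · rw [Finset.sum_insert ha]
      calc volume L + (ENNReal.ofReal (2 * s a) * volume (sh L a) +
            ∑ i ∈ J, ENNReal.ofReal (2 * s i) * volume (sh L i))
          = (volume L + ∑ i ∈ J, ENNReal.ofReal (2 * s i) * volume (sh L i)) +
            ENNReal.ofReal (2 * s a) * volume (sh L a) := by ring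
        _ ≤ volume M + ENNReal.ofReal (2 * s a) * volume (sh M a) :=
            add_le_add h3 (mul_le_mul_right (measure_mono (sh_mono h2 a)) _)
        _ ≤ _ := thk_volume h1 a (hs a)
    · rintro _ ⟨⟨x, r⟩, ⟨hx, hr⟩, rfl⟩
      obtain ⟨z, hz1, hz2, hz3⟩ := h4 x hx
      refine ⟨z + r • (Pi.single a 1 : Fin (m + 1) → ℝ), fun i => ?_, ?_, fun i hi => ?_⟩
      · by_cases hia : i = a
        · subst hia
          rw [Pi.add_apply, hz3 i ha, zero_add, Pi.smul_apply, Pi.single_eq_same, smul_eq_mul,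
            mul_one, abs_le]
          exact ⟨hr.1, hr.2⟩
        · rw [Pi.add_apply, Pi.smul_apply, Pi.single_eq_of_ne hia, smul_zero, add_zero]
          exact hz1 i
      · have e : x + r • (Pi.single a 1 : Fin (m + 1) → ℝ) -
            (z + r • (Pi.single a 1 : Fin (m + 1) → ℝ)) = x - z := by abel
        change x + r • (Pi.single a 1 : Fin (m + 1) → ℝ) -
            (z + r • (Pi.single a 1 : Fin (m + 1) → ℝ)) ∈ L
        rwa [e]
      · rw [Finset.mem_insert, not_or] at hi
        rw [Pi.add_apply, hz3 i hi.2, zero_add, Pi.smul_apply, Pi.single_eq_of_ne hi.1, smul_zero]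

theorem pow_bound (n : ℕ) {t : ℝ} (h0 : 0 ≤ t) (h1 : t ≤ 1) :
    (1 + t) ^ n ≤ 1 + n * t + 3 ^ n * t ^ 2 := by
  induction n with
  | zero => simp; positivity
  | succ n ih =>
    have hn : (n : ℝ) ≤ 3 ^ n := by
      have : n < 3 ^ n := Nat.lt_pow_self (by norm_num)
      exact_mod_cast this.le
    have h3 : (0 : ℝ) < 3 ^ n := by positivity
    have h4 : t ^ 3 ≤ t ^ 2 := by
      have : t ^ 3 = t ^ 2 * t := by ring
      rw [this]
      exact mul_le_of_le_one_right (sq_nonneg t) h1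
    calc (1 + t) ^ (n + 1) = (1 + t) ^ n * (1 + t) := pow_succ _ _
      _ ≤ (1 + n * t + 3 ^ n * t ^ 2) * (1 + t) := mul_le_mul_of_nonneg_right ih (by linarith)
      _ = 1 + (n + 1) * t + (n * t ^ 2 + 3 ^ n * t ^ 2 + 3 ^ n * t ^ 3) := by ring
      _ ≤ 1 + (n + 1) * t + (3 ^ n * t ^ 2 + 3 ^ n * t ^ 2 + 3 ^ n * t ^ 2) := by
          have e1 : (n : ℝ) * t ^ 2 ≤ 3 ^ n * t ^ 2 := mul_le_mul_of_nonneg_right hn (sq_nonneg t)
          have e2 : (3 : ℝ) ^ n * t ^ 3 ≤ 3 ^ n * t ^ 2 := mul_le_mul_of_nonneg_left h4 h3.le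
          linarith
      _ = 1 + ((n + 1 : ℕ) : ℝ) * t + 3 ^ (n + 1) * t ^ 2 := by
          push_cast
          ring

theorem pMink : PMink := by
  intro m L w hL hconv hw hbox
  set A : ℝ≥0∞ := ∑ i, ENNReal.ofReal (2 * w i) * volume (sh L i) with hA
  have hLfin : volume L ≠ ∞ := hL.measure_lt_top.ne
  -- the inequality for every `t`
  have key : ∀ t : ℝ, 0 < t → volume L + ENNReal.ofReal t * A ≤
      ENNReal.ofReal ((1 + t) ^ (m + 1)) * volume L := by
    intro t ht
    obtain ⟨M, h1, h2, h3, h4⟩ := exists_thick hL (s := fun i => t * w i)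
      (fun i => mul_nonneg ht.le (hw i)) Finset.univ
    have e1 : ∑ i, ENNReal.ofReal (2 * (t * w i)) * volume (sh L i) = ENNReal.ofReal t * A := by
      rw [hA, Finset.mul_sum]
      refine Finset.sum_congr rfl fun i _ => ?_
      have e2 : 2 * (t * w i) = t * (2 * w i) := by ring
      rw [e2, ENNReal.ofReal_mul ht.le, mul_assoc]
    rw [e1] at h3
    have h5 : M ⊆ (1 + t) • L := by
      intro x hx
      obtain ⟨z, hz1, hz2, -⟩ := h4 x hx
      have hz : t⁻¹ • z ∈ L := by
        apply hbox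
        intro i
        rw [Pi.smul_apply, smul_eq_mul, abs_mul, abs_of_pos (inv_pos.2 ht)]
        calc t⁻¹ * |z i| ≤ t⁻¹ * (t * w i) :=
              mul_le_mul_of_nonneg_left (hz1 i) (inv_pos.2 ht).le
          _ = w i := by field_simp
      have ht1 : (0 : ℝ) < 1 + t := by linarith
      refine ⟨(1 / (1 + t)) • (x - z) + (t / (1 + t)) • (t⁻¹ • z), hconv hz2 hz (by positivity)
        (by positivity) (by field_simp), ?_⟩
      simp only [smul_add, smul_smul]
      have e2 : (1 + t) * (1 / (1 + t)) = 1 := by field_simp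
      have e3 : (1 + t) * (t / (1 + t) * t⁻¹) = 1 := by field_simp
      rw [e2, e3, one_smul, one_smul, sub_add_cancel]
    refine h3.trans ((measure_mono h5).trans (le_of_eq ?_))
    rw [Measure.addHaar_smul_of_nonneg _ (by linarith)]
    congr 3
    simp
  have hAfin : A ≠ ∞ := by
    refine ENNReal.sum_ne_top.2 fun i _ => ENNReal.mul_ne_top ENNReal.ofReal_ne_top ?_
    exact (sh_compact hL i).measure_lt_top.ne
  set V : ℝ := (volume L).toReal with hV
  set a : ℝ := A.toReal with ha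
  have hV0 : 0 ≤ V := ENNReal.toReal_nonneg
  have key2 : ∀ t : ℝ, 0 < t → V + t * a ≤ (1 + t) ^ (m + 1) * V := by
    intro t ht
    have h1 := ENNReal.toReal_mono (ENNReal.mul_ne_top ENNReal.ofReal_ne_top hLfin) (key t ht)
    rw [ENNReal.toReal_add hLfin (ENNReal.mul_ne_top ENNReal.ofReal_ne_top hAfin),
      ENNReal.toReal_mul, ENNReal.toReal_mul, ENNReal.toReal_ofReal ht.le,
      ENNReal.toReal_ofReal (by positivity)] at h1
    exact h1
  have key3 : ∀ t : ℝ, 0 < t → t ≤ 1 → a ≤ (m + 1) * V + 3 ^ (m + 1) * V * t := by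
    intro t ht ht1
    have h1 := key2 t ht
    have h2 := mul_le_mul_of_nonneg_right (pow_bound (m + 1) ht.le ht1) hV0
    have h3 : t * a ≤ t * ((m + 1) * V + 3 ^ (m + 1) * V * t) := by
      push_cast at h2
      nlinarith
    exact le_of_mul_le_mul_left h3 ht
  have h6 : a ≤ (m + 1) * V := by
    by_contra hcon
    push Not at hcon
    set D : ℝ := 3 ^ (m + 1) * V with hD
    have hD0 : 0 ≤ D := by positivity
    have hgap : 0 < a - (m + 1) * V := by linarith
    set t : ℝ := min 1 ((a - (m + 1) * V) / (2 * (D + 1))) with ht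
    have ht0 : 0 < t := lt_min one_pos (by positivity)
    have h7 := key3 t ht0 (min_le_left _ _)
    have h8 : D * t ≤ (a - (m + 1) * V) / 2 := by
      calc D * t ≤ D * ((a - (m + 1) * V) / (2 * (D + 1))) :=
            mul_le_mul_of_nonneg_left (min_le_right _ _) hD0
        _ ≤ (D + 1) * ((a - (m + 1) * V) / (2 * (D + 1))) :=
            mul_le_mul_of_nonneg_right (by linarith) (by positivity)
        _ = (a - (m + 1) * V) / 2 := by field_simp
    linarith
  calc A = ENNReal.ofReal a := (ENNReal.ofReal_toReal hAfin).symm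
    _ ≤ ENNReal.ofReal ((m + 1) * V) := ENNReal.ofReal_le_ofReal h6
    _ = (m + 1 : ℝ≥0∞) * volume L := by
        rw [ENNReal.ofReal_mul (by positivity), hV, ENNReal.ofReal_toReal hLfin]
        congr 1
        rw [ENNReal.ofReal_add (by positivity) zero_le_one, ENNReal.ofReal_natCast,
          ENNReal.ofReal_one]

end Vale.Agent.P248.H432.Q
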