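import Vale.Agent.P248.H432.Q.Fin

/-! P248: the bound of Q1 is larger than the bound of Q2. -/

open MeasureTheory Set
open scoped ENNReal

namespace Vale.Agent.P248.H432.Q

theorem pow_lt : ∀ n : ℕ, 2 ≤ n → ((n : ℝ) + 1) ^ (n + 1) < 4 ^ n * (n.factorial : ℝ) := by
  intro n hn
  induction n, hn using Nat.le_induction with
  | base => norm_num [Nat.factorial]
  | succ n hn ih =>
    have hn2 : (2 : ℝ) ≤ n := by exact_mod_cast hn
    have h0 : (0 : ℝ) < (n : ℝ) + 1 := by positivity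
    have h1 : (1 + 1 / ((n : ℝ) + 1)) ^ (n + 1) ≤ Real.exp 1 := by
      have h2 : 1 + 1 / ((n : ℝ) + 1) ≤ Real.exp (1 / ((n : ℝ) + 1)) := by
        have := Real.add_one_le_exp (1 / ((n : ℝ) + 1))
        linarith
      calc (1 + 1 / ((n : ℝ) + 1)) ^ (n + 1) ≤ Real.exp (1 / ((n : ℝ) + 1)) ^ (n + 1) := by
            gcongr
        _ = Real.exp 1 := by
            rw [← Real.exp_nat_mul]
            congr 1
            push_cast
            field_simp
    have he := Real.exp_one_lt_d9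
    have e1 : ((n : ℝ) + 1 + 1) ^ (n + 1) =
        (1 + 1 / ((n : ℝ) + 1)) ^ (n + 1) * ((n : ℝ) + 1) ^ (n + 1) := by
      rw [← mul_pow]
      congr 1
      field_simp
    have h3 : ((n : ℝ) + 1 + 1) ^ (n + 1) ≤ Real.exp 1 * ((n : ℝ) + 1) ^ (n + 1) := by
      rw [e1]
      gcongr
    have h4 : (0 : ℝ) < ((n : ℝ) + 1) ^ (n + 1) := by positivity
    have h5 : Real.exp 1 * ((n : ℝ) + 2) ≤ 4 * ((n : ℝ) + 1) := by nlinarith
    calc (((n + 1 : ℕ) : ℝ) + 1) ^ (n + 1 + 1)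
        = ((n : ℝ) + 1 + 1) ^ (n + 1) * ((n : ℝ) + 2) := by
          push_cast
          ring
      _ ≤ Real.exp 1 * ((n : ℝ) + 1) ^ (n + 1) * ((n : ℝ) + 2) := by gcongr
      _ = Real.exp 1 * ((n : ℝ) + 2) * ((n : ℝ) + 1) ^ (n + 1) := by ring
      _ ≤ 4 * ((n : ℝ) + 1) * ((n : ℝ) + 1) ^ (n + 1) := by gcongr
      _ < 4 * ((n : ℝ) + 1) * (4 ^ n * (n.factorial : ℝ)) := by gcongr
      _ = 4 ^ (n + 1) * ((n + 1).factorial : ℝ) := by
          rw [Nat.factorial_succ]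
          push_cast
          ring

theorem simplexVal_lt {n : ℕ} (hn : 2 ≤ n) : simplexVal n < 4 ^ n / (n.factorial : ℝ) := by
  have h := pow_lt n hn
  have hf : (0 : ℝ) < n.factorial := by positivity
  unfold simplexVal
  rw [div_lt_div_iff₀ (by positivity) hf]
  calc ((n : ℝ) + 1) ^ (n + 1) * n.factorial < 4 ^ n * (n.factorial : ℝ) * n.factorial := by
        gcongr
    _ = 4 ^ n * (n.factorial : ℝ) ^ 2 := by ring

/-- bodies with the bound of Q1 have ratio larger than one -/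
theorem one_lt_ratio {n : ℕ} (hn : 2 ≤ n) {K : Set (E n)}
    (h : ENNReal.ofReal (4 ^ n / (n.factorial : ℝ)) ≤ volumeProduct K) : 1 < mahlerRatio K := by
  have hsv := simplexVal_pos n
  unfold mahlerRatio
  rw [ENNReal.lt_div_iff_mul_lt (Or.inl (by
    rw [Ne, ENNReal.ofReal_eq_zero, not_le]
    exact hsv)) (Or.inl ENNReal.ofReal_ne_top), one_mul]
  refine lt_of_lt_of_le ?_ h
  exact (ENNReal.ofReal_lt_ofReal_iff (by positivity)).2 (simplexVal_lt hn)

end Vale.Agent.P248.H432.Q
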