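import Vale.Agent.P248.H432.Q.Spec

/-!
Block ORT: orthant volumes from the symmetries.
-/

open MeasureTheory Set
open scoped ENNReal symmDiff

namespace Vale.Agent.P248.H432.Q

namespace Ort

variable {n : ℕ}

theorem flp_flp' (A J : Finset (Fin n)) (x : Fin n → ℝ) : flp J (flp A x) = flp (J ∆ A) x := by
  funext i
  simp only [flp, Finset.mem_symmDiff]
  by_cases h1 : i ∈ J <;> by_cases h2 : i ∈ A <;> simp [h1, h2]

theorem flp_empty (x : Fin n → ℝ) : flp ∅ x = x := by
  funext i
  simp [flp]

theorem mp_flp (A : Finset (Fin n)) : MeasurePreserving (flp A) volume volume := by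
  have h : (flp A : (Fin n → ℝ) → (Fin n → ℝ)) =
      fun x i => (fun i : Fin n => if i ∈ A then (fun t : ℝ => -t) else id) i (x i) := by
    funext x i
    by_cases hi : i ∈ A <;> simp [flp, hi]
  rw [h]
  refine volume_preserving_pi fun i => ?_
  by_cases hi : i ∈ A
  · simpa [hi] using Measure.measurePreserving_neg (volume : Measure ℝ)
  · simpa [hi] using MeasurePreserving.id (volume : Measure ℝ)

theorem meas_flp (A : Finset (Fin n)) : Measurable (flp A) := (mp_flp A).measurable

/-- closed orthant -/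
def C (J : Finset (Fin n)) : Set (Fin n → ℝ) := {x | ∀ i, 0 ≤ flp J x i}

/-- open orthant -/
def O (J : Finset (Fin n)) : Set (Fin n → ℝ) := {x | ∀ i, 0 < flp J x i}

theorem measurableSet_O (J : Finset (Fin n)) : MeasurableSet (O J) := by
  have : O J = ⋂ i, {x | 0 < flp J x i} := by ext x; simp [O]
  rw [this]
  exact MeasurableSet.iInter fun i =>
    measurableSet_lt measurable_const ((measurable_pi_apply i).comp (meas_flp J))

theorem measurableSet_C (J : Finset (Fin n)) : MeasurableSet (C J) := by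
  have : C J = ⋂ i, {x | 0 ≤ flp J x i} := by ext x; simp [C]
  rw [this]
  exact MeasurableSet.iInter fun i =>
    measurableSet_le measurable_const ((measurable_pi_apply i).comp (meas_flp J))

/-- coordinate hyperplanes -/
def N (n : ℕ) : Set (Fin n → ℝ) := {x | ∃ i, x i = 0}

theorem vol_N : volume (N n) = 0 := by
  have : N n = ⋃ i, {x : Fin n → ℝ | x i = 0} := by ext x; simp [N]
  rw [this, measure_iUnion_null_iff]
  intro i
  have h : {x : Fin n → ℝ | x i = 0} = (fun x : Fin n → ℝ => x i) ⁻¹' {0} := rfl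
  rw [h]
  exact Measure.pi_hyperplane _ i 0

theorem C_sub (J : Finset (Fin n)) : C J ⊆ O J ∪ N n := by
  intro x hx
  by_cases h : x ∈ N n
  · exact Or.inr h
  · left
    intro i
    refine lt_of_le_of_ne (hx i) fun h0 => h ⟨i, ?_⟩
    unfold flp at h0
    split_ifs at h0
    · linarith
    · exact h0.symm

theorem O_sub (J : Finset (Fin n)) : O J ⊆ C J := fun _ hx i => (hx i).le

theorem vol_inter_C (K : Set (Fin n → ℝ)) (J : Finset (Fin n)) :
    volume (K ∩ C J) = volume (K ∩ O J) := by
  apply le_antisymm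
  · calc volume (K ∩ C J) ≤ volume ((K ∩ O J) ∪ N n) := measure_mono fun x hx => by
          rcases C_sub J hx.2 with h | h
          · exact Or.inl ⟨hx.1, h⟩
          · exact Or.inr h
      _ ≤ volume (K ∩ O J) + volume (N n) := measure_union_le _ _
      _ = volume (K ∩ O J) := by rw [vol_N, add_zero]
  · exact measure_mono (inter_subset_inter_right _ (O_sub J))

theorem vol_pos (K : Set (Fin n → ℝ)) (hK : MeasurableSet K) (J : Finset (Fin n)) :
    volume (pos (flp J ⁻¹' K)) = volume (K ∩ O J) := by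
  have h : pos (flp J ⁻¹' K) = flp J ⁻¹' (K ∩ C J) := by
    ext x
    simp only [pos, C, mem_inter_iff, mem_preimage, mem_ofPred_eq, flp_flp', symmDiff_self,
      Finset.bot_eq_empty, flp_empty]
  rw [h, (mp_flp J).measure_preimage (hK.inter (measurableSet_C J)).nullMeasurableSet,
    vol_inter_C]

theorem O_disj {J J' : Finset (Fin n)} (h : J ≠ J') : Disjoint (O J) (O J') := by
  rw [Set.disjoint_left]
  intro x hx hx'
  apply h
  ext i
  have h1 := hx i
  have h2 := hx' i
  unfold flp at h1 h2
  by_cases a : i ∈ J <;> by_cases b : i ∈ J' <;> simp only [a, b, if_true, if_false] at h1 h2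
  · simp [a, b]
  · linarith
  · linarith
  · simp [a, b]

theorem cover (x : Fin n → ℝ) (hx : x ∉ N n) : ∃ J, x ∈ O J := by
  classical
  refine ⟨Finset.univ.filter fun i => x i < 0, fun i => ?_⟩
  have h0 : x i ≠ 0 := fun h => hx ⟨i, h⟩
  simp only [flp, Finset.mem_filter, Finset.mem_univ, true_and]
  split_ifs with h
  · linarith
  · exact lt_of_le_of_ne (not_lt.1 h) h0.symm

theorem vol_sum (K : Set (Fin n → ℝ)) (hK : MeasurableSet K) :
    volume K = ∑ J : Finset (Fin n), volume (K ∩ O J) := by
  have h1 : volume (⋃ J : Finset (Fin n), K ∩ O J) = ∑ J : Finset (Fin n), volume (K ∩ O J) := by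
    rw [measure_iUnion (fun J J' h => (O_disj h).mono inter_subset_right inter_subset_right)
      fun J => hK.inter (measurableSet_O J), tsum_fintype]
  rw [← h1]
  apply le_antisymm
  · calc volume K ≤ volume ((⋃ J : Finset (Fin n), K ∩ O J) ∪ N n) := measure_mono fun x hx => by
          by_cases h : x ∈ N n
          · exact Or.inr h
          · obtain ⟨J, hJ⟩ := cover x h
            exact Or.inl (mem_iUnion.2 ⟨J, hx, hJ⟩)
      _ ≤ volume (⋃ J : Finset (Fin n), K ∩ O J) + volume (N n) := measure_union_le _ _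
      _ = _ := by rw [vol_N, add_zero]
  · exact measure_mono (iUnion_subset fun J => inter_subset_left)

theorem inv_of_notMem {K : Set (Fin n → ℝ)} {a b : Fin n} (h : Cls a b K)
    (A : Finset (Fin n)) : a ∉ A → b ∉ A → ∀ x ∈ K, flp A x ∈ K := by
  classical
  induction A using Finset.induction_on with
  | empty => intro _ _ x hx; rwa [flp_empty]
  | insert i A hi ih =>
    intro ha hb x hx
    rw [Finset.mem_insert, not_or] at ha hb
    have h1 := ih ha.2 hb.2 x hx
    have h2 := h.flip i (fun e => ha.1 e.symm) (fun e => hb.1 e.symm) _ h1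
    have e : flp (insert i A) x = Function.update (flp A x) i (-(flp A x i)) := by
      funext j
      by_cases hj : j = i
      · subst hj; simp [flp, hi]
      · simp [flp, hj]
    rw [e]
    exact h2

theorem inv {K : Set (Fin n → ℝ)} {a b : Fin n} (h : Cls a b K)
    (A : Finset (Fin n)) (hA : a ∈ A ↔ b ∈ A) : ∀ x ∈ K, flp A x ∈ K := by
  classical
  intro x hx
  by_cases ha : a ∈ A
  · have hb : b ∈ A := hA.1 ha
    have h1 := inv_of_notMem h Aᶜ (by simpa using ha) (by simpa using hb) x hx
    have h2 := h.neg _ h1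
    have : -(flp Aᶜ x) = flp A x := by
      funext j
      by_cases hj : j ∈ A <;> simp [flp, hj]
    rwa [this] at h2
  · exact inv_of_notMem h A ha (fun hb => ha (hA.2 hb)) x hx

theorem pre_eq {K : Set (Fin n → ℝ)} {a b : Fin n} (h : Cls a b K)
    (A : Finset (Fin n)) (hA : a ∈ A ↔ b ∈ A) : flp A ⁻¹' K = K := by
  ext x
  constructor
  · intro hx
    have := inv h A hA _ hx
    rwa [flp_flp', symmDiff_self, Finset.bot_eq_empty, flp_empty] at this
  · exact fun hx => inv h A hA x hx

theorem vol_type {K : Set (Fin n → ℝ)} (hK : MeasurableSet K) {a b : Fin n} (h : Cls a b K)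
    (J A : Finset (Fin n)) (hA : a ∈ A ↔ b ∈ A) :
    volume (K ∩ O (J ∆ A)) = volume (K ∩ O J) := by
  have h1 : flp A ⁻¹' (K ∩ O J) = K ∩ O (J ∆ A) := by
    rw [preimage_inter, pre_eq h A hA]
    congr 1
    ext x
    simp only [O, mem_preimage, mem_ofPred_eq, flp_flp']
  rw [← h1, (mp_flp A).measure_preimage (hK.inter (measurableSet_O J)).nullMeasurableSet]

end Ort

open Ort in
theorem pOrt : POrt := by
  classical
  intro n a b K h hQ J
  have hK : MeasurableSet K := h.body.cpt.measurableSet
  have hfin : volume K ≠ ∞ := h.body.cpt.measure_lt_top.ne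
  rw [vol_pos K hK]
  set v : Finset (Fin n) → ℝ≥0∞ := fun J => volume (K ∩ O J) with hv
  change 2 ^ n * v J = volume K
  have key : ∀ J J' : Finset (Fin n), ((a ∈ J ↔ b ∈ J) ↔ (a ∈ J' ↔ b ∈ J')) → v J = v J' := by
    intro J J' hJ
    have h1 := vol_type hK h J (J ∆ J') (by
      simp only [Finset.mem_symmDiff]; tauto)
    rw [symmDiff_symmDiff_cancel_left] at h1
    exact h1.symm
  set P := Finset.univ.filter fun J : Finset (Fin n) => (a ∈ J ↔ b ∈ J) with hP
  set Q := Finset.univ.filter fun J : Finset (Fin n) => ¬ (a ∈ J ↔ b ∈ J) with hQd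
  have hcard : P.card = Q.card := by
    refine Finset.card_bij (fun J _ => J ∆ {a}) ?_ ?_ ?_
    · intro J hJ
      simp only [hP, hQd, Finset.mem_filter, Finset.mem_univ, true_and, Finset.mem_symmDiff,
        Finset.mem_singleton] at hJ ⊢
      have := h.ne
      have hba : b ≠ a := fun e => this e.symm
      tauto
    · intro J _ J' _ hJJ
      exact symmDiff_left_injective _ hJJ
    · intro J hJ
      refine ⟨J ∆ {a}, ?_, by simp⟩
      simp only [hP, hQd, Finset.mem_filter, Finset.mem_univ, true_and, Finset.mem_symmDiff,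
        Finset.mem_singleton] at hJ ⊢
      have := h.ne
      have hba : b ≠ a := fun e => this e.symm
      tauto
  have hsum : P.card + Q.card = 2 ^ n := by
    rw [hP, hQd, Finset.card_filter_add_card_filter_not]
    simp
  have hV : volume K = ∑ J ∈ P, v J + ∑ J ∈ Q, v J := by
    rw [vol_sum K hK, hP, hQd, Finset.sum_filter_add_sum_filter_not]
  have hS : volume (K ∩ {z | 0 < z a * z b}) = ∑ J ∈ P, v J := by
    have hm : MeasurableSet {z : Fin n → ℝ | 0 < z a * z b} :=
      measurableSet_lt measurable_const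
        ((measurable_pi_apply a).mul (measurable_pi_apply b))
    rw [vol_sum _ (hK.inter hm), hP, Finset.sum_filter]
    refine Finset.sum_congr rfl fun J _ => ?_
    split_ifs with hJ
    · change _ = volume (K ∩ O J)
      congr 1
      ext x
      simp only [mem_inter_iff, mem_ofPred_eq]
      refine ⟨fun hx => ⟨hx.1.1, hx.2⟩, fun hx => ⟨⟨hx.1, ?_⟩, hx.2⟩⟩
      have ha := hx.2 a
      have hb := hx.2 b
      unfold flp at ha hb
      by_cases h1 : a ∈ J
      · rw [if_pos h1] at ha
        rw [if_pos (hJ.1 h1)] at hb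
        exact mul_pos_of_neg_of_neg (by linarith) (by linarith)
      · rw [if_neg h1] at ha
        rw [if_neg (fun e => h1 (hJ.2 e))] at hb
        exact mul_pos ha hb
    · have : K ∩ {z | 0 < z a * z b} ∩ O J = ∅ := by
        rw [Set.eq_empty_iff_forall_notMem]
        rintro x ⟨⟨_, hx⟩, hO⟩
        have ha := hO a
        have hb := hO b
        unfold flp at ha hb
        apply hJ
        have hx' : 0 < x a * x b := hx
        by_cases h1 : a ∈ J <;> by_cases h2 : b ∈ J <;>
          simp only [h1, h2, if_true, if_false] at ha hb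
        · simp [h1, h2]
        · nlinarith
        · nlinarith
        · simp [h1, h2]
      rw [this, measure_empty]
  have hPc : ∀ J₀, (a ∈ J₀ ↔ b ∈ J₀) → ∑ J ∈ P, v J = P.card * v J₀ := by
    intro J₀ h0
    rw [← nsmul_eq_mul]
    refine Finset.sum_eq_card_nsmul fun J hJ => key _ _ ?_
    have := (Finset.mem_filter.1 hJ).2
    tauto
  have hQc : ∀ J₀, ¬ (a ∈ J₀ ↔ b ∈ J₀) → ∑ J ∈ Q, v J = Q.card * v J₀ := by
    intro J₀ h0
    rw [← nsmul_eq_mul]
    refine Finset.sum_eq_card_nsmul fun J hJ => key _ _ ?_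
    have := (Finset.mem_filter.1 hJ).2
    tauto
  have h2c : (2 : ℝ≥0∞) ^ n = 2 * P.card := by
    have : (2 : ℕ) ^ n = 2 * P.card := by omega
    exact_mod_cast congrArg (Nat.cast : ℕ → ℝ≥0∞) this
  rw [hS] at hQ
  by_cases hJ : a ∈ J ↔ b ∈ J
  · rw [h2c, mul_assoc, ← hPc J hJ, hQ]
  · have h3 : ∑ J ∈ P, v J ≠ ∞ := by
      intro e
      rw [hV, e] at hfin
      simp at hfin
    have h4 : ∑ J ∈ Q, v J = ∑ J ∈ P, v J := by
      have : ∑ J ∈ P, v J + ∑ J ∈ P, v J = ∑ J ∈ P, v J + ∑ J ∈ Q, v J := by
        rw [← hV, ← two_mul, hQ]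
      exact ((ENNReal.add_right_inj h3).1 this).symm
    rw [h2c, mul_assoc, hcard, ← hQc J hJ, h4, hQ]

end Vale.Agent.P248.H432.Q
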