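import Vale.Agent.P248.H432.Q.Exc

/-! P248, Q1: origin-symmetric bodies invariant under the rotations in all coordinates but two. -/

set_option linter.unusedSectionVars false

open MeasureTheory Set
open scoped ENNReal

namespace Vale.Agent.P248.H432.Q

open Vale.Agent.P254.H242 (kap kap_pos RInv kap_succ2 kap_zero kap_one)

variable {n : ℕ}

theorem vp_ball_le {p : ℕ} (hp : 1 ≤ p) :
    volumeProduct (Metric.closedBall (0 : E p) 1) ≤ ENNReal.ofReal (kap p ^ 2) := by
  have : Nonempty (Fin p) := ⟨⟨0, hp⟩⟩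
  have hk := kap_pos p
  have hv : volume (Metric.closedBall (0 : E p) 1) = ENNReal.ofReal (kap p) := by
    rw [EuclideanSpace.volume_closedBall, ENNReal.ofReal_one, one_pow, one_mul, Fintype.card_fin]
    rfl
  have hpol : polarAt (Metric.closedBall (0 : E p) 1) 0 ⊆ Metric.closedBall (0 : E p) 1 := by
    intro y hy
    rw [mem_closedBall_zero_iff]
    by_contra hlt
    rw [not_le] at hlt
    have hy0 : 0 < ‖y‖ := by linarith
    have h1 := hy (‖y‖⁻¹ • y) (by
      rw [mem_closedBall_zero_iff, norm_smul, norm_inv, norm_norm, inv_mul_cancel₀ hy0.ne'])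
    rw [sub_zero, inner_smul_right, real_inner_self_eq_norm_sq] at h1
    have h2 : ‖y‖⁻¹ * ‖y‖ ^ 2 = ‖y‖ := by field_simp
    rw [h2] at h1
    linarith
  refine (iInf₂_le 0 (by
    rw [interior_closedBall _ one_ne_zero]; exact Metric.mem_ball_self one_pos)).trans ?_
  rw [pow_two, ENNReal.ofReal_mul hk.le, ← hv]
  exact mul_le_mul' le_rfl (measure_mono hpol)

/-- `4^p / p! < kap p ^ 2` for `p ≥ 2` -/
theorem kap_gt : ∀ p : ℕ, 2 ≤ p → 4 ^ p / (p.factorial : ℝ) < kap p ^ 2 := by
  have hpi := Real.pi_gt_three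
  have key : ∀ p : ℕ, 4 ^ p / (p.factorial : ℝ) ≤ kap p ^ 2 →
      4 ^ (p + 2) / ((p + 2).factorial : ℝ) < kap (p + 2) ^ 2 ∨ p < 1 := by
    intro p hp
    rcases Nat.lt_or_ge p 1 with h1 | h1
    · exact Or.inr h1
    left
    have hk := kap_pos p
    have hp1 : (1 : ℝ) ≤ p := by exact_mod_cast h1
    have hf : ((p + 2).factorial : ℝ) = ((p : ℝ) + 2) * (((p : ℝ) + 1) * p.factorial) := by
      rw [Nat.factorial_succ, Nat.factorial_succ]
      push_cast
      ring
    have hpf : (0 : ℝ) < p.factorial := by positivity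
    rw [hf, kap_succ2]
    have e1 : (4 : ℝ) ^ (p + 2) / (((p : ℝ) + 2) * (((p : ℝ) + 1) * p.factorial)) =
        (4 ^ p / (p.factorial : ℝ)) * (16 / (((p : ℝ) + 2) * ((p : ℝ) + 1))) := by
      rw [pow_add]
      field_simp
      norm_num
    rw [e1, mul_pow]
    have h2 : 16 / (((p : ℝ) + 2) * ((p : ℝ) + 1)) < (2 * Real.pi / (p + 2)) ^ 2 := by
      rw [div_pow, div_lt_div_iff₀ (by positivity) (by positivity)]
      have h3 : 36 < (2 * Real.pi) ^ 2 := by nlinarith
      have h4 : 16 * ((p : ℝ) + 2) ≤ 24 * ((p : ℝ) + 1) := by linarith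
      have h5 : (0 : ℝ) < ((p : ℝ) + 2) * ((p : ℝ) + 1) := by positivity
      have h6 : 36 * (((p : ℝ) + 2) * ((p : ℝ) + 1)) <
          (2 * Real.pi) ^ 2 * (((p : ℝ) + 2) * ((p : ℝ) + 1)) := by nlinarith
      have h7 : 16 * ((p : ℝ) + 2) ^ 2 ≤ 36 * (((p : ℝ) + 2) * ((p : ℝ) + 1)) := by nlinarith
      linarith
    have h8 : (0 : ℝ) < kap p ^ 2 := by positivity
    calc 4 ^ p / (p.factorial : ℝ) * (16 / (((p : ℝ) + 2) * ((p : ℝ) + 1)))
        ≤ kap p ^ 2 * (16 / (((p : ℝ) + 2) * ((p : ℝ) + 1))) := by gcongr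
      _ < kap p ^ 2 * (2 * Real.pi / (p + 2)) ^ 2 := by gcongr
  have h2 : 4 ^ 2 / ((2 : ℕ).factorial : ℝ) < kap 2 ^ 2 := by
    have h0 : kap 2 = Real.pi := by
      have := kap_succ2 0
      rw [kap_zero] at this
      norm_num at this
      exact this
    rw [h0]
    norm_num [Nat.factorial]
    nlinarith
  intro p
  induction p using Nat.strong_induction_on with
  | _ p ih =>
    intro hp
    rcases Nat.lt_or_ge p 4 with h4 | h4
    · interval_cases p
      · exact h2
      · rcases key 1 (by rw [kap_one]; norm_num) with h | h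
        · exact h
        · omega
    · obtain ⟨r, rfl⟩ : ∃ r, p = r + 2 := ⟨p - 2, by omega⟩
      rcases key r (ih r (by omega) (by omega)).le with h | h
      · exact h
      · omega

/-- frame coordinates at `0` are translated frame coordinates at `p` -/
theorem frame_shift (p : E n) (b : Module.Basis (Fin n) ℝ (E n)) (u : Fin n → ℝ) :
    frame p b (u - b.equivFun p) = frame 0 b u := by
  unfold frame
  rw [map_sub, LinearEquiv.symm_apply_apply, zero_add]
  abel

/-- the centre of symmetry of a body with rotations in a block has no component in the block -/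
theorem centre_zero {T : Finset (Fin n)} {S : Set (Fin n → ℝ)} (hS : IsCompact S)
    (hne : S.Nonempty) (hR : RInv T S) {c : Fin n → ℝ} (hc : ∀ x ∈ S, c + c - x ∈ S) :
    ∀ i ∈ T, c i = 0 := by
  intro i hi
  have hfl : ∀ x ∈ S, flp T x ∈ S := fun x hx =>
    hR x hx _ (fun j hj => by simp [flp, hj]) (Finset.sum_congr rfl fun j hj => by
      simp [flp, hj])
  obtain ⟨x, hx, hmax⟩ := hS.exists_isMaxOn hne (continuous_apply i).continuousOn
  have h1 : ∀ y ∈ S, y i ≤ x i := fun y hy => hmax hy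
  have h2 := hfl _ (hc _ (hfl _ (hc x hx)))
  have h3 := hc _ (hfl _ (hc _ (hfl x hx)))
  have e2 := h1 _ h2
  have e3 := h1 _ h3
  simp only [flp, hi, if_true, Pi.add_apply, Pi.sub_apply] at e2 e3
  linarith

/-- origin-symmetric bodies invariant under the rotations in all coordinates but two -/
theorem q1_rotation (hP : PCls) {K : Set (E n)} (hK : IsConvexBody K) (hs : ∀ x ∈ K, -x ∈ K)
    {m : ℕ} {T : Fin m → Finset (Fin n)} (hT : IsRotInv T K) (i₀ : Fin m)
    (hc : (T i₀).card + 2 = n) (h1 : 1 ≤ (T i₀).card) :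
    ENNReal.ofReal (4 ^ n / (n.factorial : ℝ)) * ENNReal.ofReal (kap (T i₀).card ^ 2) ≤
      ENNReal.ofReal (4 ^ (T i₀).card / ((T i₀).card.factorial : ℝ)) * volumeProduct K := by
  obtain ⟨p, b, hT⟩ := hT
  replace hT := hT i₀
  set S := frame p b ⁻¹' K with hSd
  have hS := CB_frame hK p b
  set S₂ := frame 0 b ⁻¹' K with hS2d
  have hS₂ := CB_frame hK 0 b
  set c : Fin n → ℝ := -b.equivFun p with hcd
  have hshift : ∀ u, u ∈ S₂ ↔ u + c ∈ S := by
    intro u
    rw [hSd, hS2d, mem_preimage, mem_preimage, hcd, ← sub_eq_add_neg, frame_shift]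
  have hneg : ∀ x ∈ S₂, -x ∈ S₂ := by
    intro x hx
    have h2 := hs _ hx
    have e : -frame 0 b x = frame 0 b (-x) := by
      unfold frame
      rw [map_neg, zero_add, zero_add]
    rw [e] at h2
    exact h2
  have hR : RInv (T i₀) S := by
    intro x hx y h1 h2
    refine hT _ hx _ (fun j hj => ?_) ?_
    · rw [frame_repr, frame_repr]; exact h1 j hj
    · simp only [frame_repr]; exact h2
  have hsym : ∀ x ∈ S, c + c - x ∈ S := by
    intro x hx
    have h2 : x - c ∈ S₂ := by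
      rw [hshift, sub_add_cancel]
      exact hx
    have h3 := hneg _ h2
    rw [hshift] at h3
    have e : -(x - c) + c = c + c - x := by abel
    rwa [e] at h3
  have hc0 := centre_zero hS.cpt (hS.ne.mono interior_subset) hR hsym
  have hR₂ : RInv (T i₀) S₂ := by
    intro x hx y h2 h3
    rw [hshift] at hx ⊢
    refine hR _ hx _ (fun i hi => ?_) ?_
    · rw [Pi.add_apply, Pi.add_apply, h2 i hi]
    · have e : ∀ z : Fin n → ℝ, ∑ i ∈ T i₀, (z + c) i ^ 2 = ∑ i ∈ T i₀, z i ^ 2 := fun z =>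
        Finset.sum_congr rfl fun i hi => by rw [Pi.add_apply, hc0 i hi, add_zero]
      rw [e, e]
      exact h3
  have hcard : (T i₀)ᶜ.card = 2 := by
    rw [Finset.card_compl, Fintype.card_fin]
    omega
  obtain ⟨k, l, hkl, hTc⟩ := Finset.card_eq_two.1 hcard
  have hkT : ∀ i, i ∉ T i₀ ↔ i = k ∨ i = l := by
    intro i
    rw [← Finset.mem_compl, hTc]
    simp
  obtain ⟨K', hK', hle⟩ := exc h1 hS₂ hneg hR₂ hkl hkT
  have hM := hP n k l K' hK'
  rw [volumeProduct_eq_vp K 0 b, vp_symm (sb_of_symm hS₂ hneg) hneg]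
  calc _ ≤ (volume K' * volume (polarP K' 0)) * ENNReal.ofReal (kap (T i₀).card ^ 2) := by
        gcongr
        exact hM
    _ ≤ _ := hle
    _ = _ := mul_comm _ _

/-- the final form -/
theorem q1_rot2 (hP : PCls) {K : Set (E n)} (hK : IsConvexBody K) (hs : ∀ x ∈ K, -x ∈ K)
    {m : ℕ} {T : Fin m → Finset (Fin n)} (hT : IsRotInv T K) (i₀ : Fin m)
    (hc : (T i₀).card + 2 = n) (h1 : 1 ≤ (T i₀).card) :
    ENNReal.ofReal (4 ^ n / (n.factorial : ℝ)) *
        volumeProduct (Metric.closedBall (0 : E (T i₀).card) 1) ≤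
      ENNReal.ofReal (4 ^ (T i₀).card / ((T i₀).card.factorial : ℝ)) * volumeProduct K ∧
    (2 ≤ (T i₀).card → ENNReal.ofReal (4 ^ n / (n.factorial : ℝ)) < volumeProduct K) := by
  have h := q1_rotation hP hK hs hT i₀ hc h1
  refine ⟨le_trans (mul_le_mul' le_rfl (vp_ball_le h1)) h, fun h2 => ?_⟩
  have h3 := kap_gt _ h2
  have hA : (0 : ℝ) < 4 ^ n / (n.factorial : ℝ) := by positivity
  have hB : (0 : ℝ) < 4 ^ (T i₀).card / ((T i₀).card.factorial : ℝ) := by positivity
  by_contra hlt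
  rw [not_lt] at hlt
  have h4 : ENNReal.ofReal (4 ^ n / (n.factorial : ℝ)) * ENNReal.ofReal (kap (T i₀).card ^ 2) ≤
      ENNReal.ofReal (4 ^ (T i₀).card / ((T i₀).card.factorial : ℝ)) *
        ENNReal.ofReal (4 ^ n / (n.factorial : ℝ)) := h.trans (mul_le_mul' le_rfl hlt)
  rw [← ENNReal.ofReal_mul hA.le, ← ENNReal.ofReal_mul hB.le,
    ENNReal.ofReal_le_ofReal_iff (by positivity)] at h4
  nlinarith

end Vale.Agent.P248.H432.Q
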