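import Vale.Agent.P248.H432.Q.Main

/-! P248, Q1: block SEC, the coordinate sections of the bodies of the class. -/

open MeasureTheory Set
open scoped ENNReal

namespace Vale.Agent.P248.H432.Q

variable {m : ℕ}

theorem ins_sa (i : Fin (m + 1)) (s : ℝ) (y : Fin m → ℝ) (j : Fin m) :
    ins i s y (i.succAbove j) = y j := by
  simp [ins]

theorem ins_neg0 (i : Fin (m + 1)) (y : Fin m → ℝ) : ins i 0 (-y) = -ins i 0 y := by
  funext k
  refine Fin.succAboveCases i ?_ (fun j => ?_) k
  · rw [Pi.neg_apply, ins_same, ins_same, neg_zero]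
  · rw [Pi.neg_apply, ins_sa, ins_sa, Pi.neg_apply]

theorem ins_upd (i : Fin (m + 1)) (s : ℝ) (y : Fin m → ℝ) (j : Fin m) (v : ℝ) :
    Function.update (ins i s y) (i.succAbove j) v = ins i s (Function.update y j v) := by
  funext k
  refine Fin.succAboveCases i ?_ (fun l => ?_) k
  · rw [Function.update_of_ne (Fin.succAbove_ne i j).symm, ins_same, ins_same]
  · rw [ins_sa]
    by_cases h : l = j
    · subst h
      rw [Function.update_self, Function.update_self]
    · rw [Function.update_of_ne (fun h1 => h (Fin.succAbove_right_injective h1)), ins_sa,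
        Function.update_of_ne h]

/-- extend a permutation of the other coordinates by `i ↦ i` -/
theorem exists_ext (i : Fin (m + 1)) (σ : Equiv.Perm (Fin m)) : ∃ τ : Equiv.Perm (Fin (m + 1)),
    τ i = i ∧ ∀ j, τ (i.succAbove j) = i.succAbove (σ j) := by
  refine ⟨(finSuccEquiv' i).trans ((Equiv.optionCongr σ).trans (finSuccEquiv' i).symm), ?_, ?_⟩
  · simp
  · intro j
    simp

theorem flp_mem {n : ℕ} {K : Set (Fin n → ℝ)} (J : Finset (Fin n))
    (h : ∀ c ∈ J, ∀ x ∈ K, Function.update x c (-x c) ∈ K) {x : Fin n → ℝ} (hx : x ∈ K) :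
    flp J x ∈ K := by
  classical
  induction J using Finset.induction_on with
  | empty =>
    have : flp ∅ x = x := by
      funext i
      simp [flp]
    rwa [this]
  | insert c J hc ih =>
    have h1 := ih fun d hd => h d (Finset.mem_insert_of_mem hd)
    have h2 := h c (Finset.mem_insert_self c J) _ h1
    have h3 : Function.update (flp J x) c (-flp J x c) = flp (insert c J) x := by
      funext i
      by_cases hi : i = c
      · subst hi
        rw [Function.update_self]
        simp [flp, hc]
      · rw [Function.update_of_ne hi]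
        simp [flp, hi]
    rwa [h3] at h2

/-- the exceptional coordinates: flip `b` if the coordinate `a` vanishes -/
theorem flip_other {n : ℕ} {a b : Fin n} {K : Set (Fin n → ℝ)} (hneg : ∀ x ∈ K, -x ∈ K)
    (hflip : ∀ i, i ≠ a → i ≠ b → ∀ x ∈ K, Function.update x i (-x i) ∈ K) {x : Fin n → ℝ}
    (hx : x ∈ K) (hxa : x a = 0) (hab : a ≠ b) : Function.update x b (-x b) ∈ K := by
  classical
  have h1 := flp_mem (K := K) (Finset.univ.filter fun i => i ≠ a ∧ i ≠ b)
    (fun c hc => hflip c (Finset.mem_filter.mp hc).2.1 (Finset.mem_filter.mp hc).2.2)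
    (hneg x hx)
  have h2 : flp (Finset.univ.filter fun i => i ≠ a ∧ i ≠ b) (-x) =
      Function.update x b (-x b) := by
    funext i
    by_cases hb : i = b
    · subst hb
      rw [Function.update_self]
      simp [flp]
    · rw [Function.update_of_ne hb]
      by_cases ha : i = a
      · subst ha
        simp [flp, hxa]
      · simp [flp, ha, hb]
  rwa [h2] at h1

/-- permuting the coordinates as a measurable equivalence -/
theorem vol_perm (ρ : Equiv.Perm (Fin m)) (A B : Set (Fin m → ℝ))
    (h : ∀ y, y ∈ A ↔ y ∘ ρ ∈ B) : volume A = volume B := by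
  have h1 := volume_measurePreserving_piCongrLeft (fun _ : Fin m => ℝ) ρ.symm
  have h2 : (MeasurableEquiv.piCongrLeft (fun _ : Fin m => ℝ) ρ.symm) ⁻¹' B = A := by
    ext y
    rw [mem_preimage, h y]
    have h3 : (MeasurableEquiv.piCongrLeft (fun _ : Fin m => ℝ) ρ.symm) y = y ∘ ρ := by
      funext k
      have h4 := MeasurableEquiv.piCongrLeft_apply_apply (β := fun _ : Fin m => ℝ) ρ.symm y (ρ k)
      rw [Equiv.symm_apply_apply] at h4
      exact h4
    rw [h3]
  rw [← h2, h1.measure_preimage_equiv]

theorem exists_rho {i j : Fin (m + 1)} (τ : Equiv.Perm (Fin (m + 1))) (hτ : τ j = i) :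
    ∃ ρ : Equiv.Perm (Fin m), ∀ k, i.succAbove (ρ k) = τ (j.succAbove k) := by
  have h1 : ∀ k, ∃ l, i.succAbove l = τ (j.succAbove k) := by
    intro k
    apply Fin.exists_succAbove_eq
    rw [← hτ]
    intro h
    exact Fin.succAbove_ne j k (τ.injective h)
  choose f hf using h1
  have hinj : Function.Injective f := by
    intro k l hkl
    have h2 : τ (j.succAbove k) = τ (j.succAbove l) := by rw [← hf, ← hf, hkl]
    exact Fin.succAbove_right_injective (τ.injective h2)
  exact ⟨Equiv.ofBijective f (Finite.injective_iff_bijective.mp hinj), hf⟩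

theorem pSec : PSec := by
  intro m a b K hK
  refine ⟨?_, ?_, ?_⟩
  · intro i hia hib
    obtain ⟨a', ha'⟩ := Fin.exists_succAbove_eq hia.symm
    obtain ⟨b', hb'⟩ := Fin.exists_succAbove_eq hib.symm
    refine ⟨a', b', ha', hb', ?_⟩
    refine ⟨hK.body.sec i, ?_, ?_, ?_, ?_⟩
    · rintro rfl
      exact hK.ne (ha'.symm.trans hb')
    · intro x hx
      change ins i 0 (-x) ∈ K
      rw [ins_neg0]
      exact hK.neg _ hx
    · intro j hja hjb x hx
      change ins i 0 (Function.update x j (-x j)) ∈ K
      rw [← ins_upd]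
      have h1 := hK.flip (i.succAbove j)
        (fun h => hja (Fin.succAbove_right_injective (h.trans ha'.symm)))
        (fun h => hjb (Fin.succAbove_right_injective (h.trans hb'.symm))) _ hx
      rwa [ins_sa] at h1
    · intro σ hσa hσb x hx
      obtain ⟨τ, hτi, hτ⟩ := exists_ext i σ
      change ins i 0 (x ∘ σ) ∈ K
      have h1 := hK.perm τ (by rw [← ha', hτ, hσa]) (by rw [← hb', hτ, hσb]) _ hx
      have h2 : ins i 0 x ∘ τ = ins i 0 (x ∘ σ) := by
        funext k
        refine Fin.succAboveCases i ?_ (fun j => ?_) k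
        · change ins i 0 x (τ i) = _
          rw [hτi, ins_same, ins_same]
        · change ins i 0 x (τ (i.succAbove j)) = _
          rw [hτ, ins_sa, ins_sa]
          rfl
      rwa [h2] at h1
  · intro i hi
    refine ⟨hK.body.sec i, ?_⟩
    intro j x hx
    change ins i 0 (Function.update x j (-x j)) ∈ K
    rw [← ins_upd]
    have hx0 : ins i 0 x i = 0 := ins_same i 0 x
    have hji : i.succAbove j ≠ i := Fin.succAbove_ne i j
    have key : Function.update (ins i 0 x) (i.succAbove j)
        (-(ins i 0 x (i.succAbove j))) ∈ K := by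
      rcases hi with rfl | rfl
      · by_cases hb : i.succAbove j = b
        · rw [hb]
          exact flip_other hK.neg hK.flip hx hx0 hK.ne
        · exact hK.flip _ hji hb _ hx
      · by_cases ha : i.succAbove j = a
        · rw [ha]
          exact flip_other (a := i) (b := a) hK.neg (fun l h1 h2 => hK.flip l h2 h1) hx hx0
            hK.ne.symm
        · exact hK.flip _ ha hji _ hx
    rwa [ins_sa] at key
  · intro i j hia hib hja hjb a₁ b₁ a₂ b₂ ha₁ hb₁ ha₂ hb₂
    let τ : Equiv.Perm (Fin (m + 1)) := Equiv.swap i j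
    have hτj : τ j = i := Equiv.swap_apply_right i j
    have hτi : τ i = j := Equiv.swap_apply_left i j
    have hτa : τ a = a := Equiv.swap_apply_of_ne_of_ne hia.symm hja.symm
    have hτb : τ b = b := Equiv.swap_apply_of_ne_of_ne hib.symm hjb.symm
    have hττ : ∀ k, τ (τ k) = k := fun k => (Equiv.swap i j).symm_apply_apply k
    obtain ⟨ρ, hρ⟩ := exists_rho τ hτj
    have hins : ∀ y : Fin m → ℝ, ins i 0 y ∘ τ = ins j 0 (y ∘ ρ) := by
      intro y
      funext k
      refine Fin.succAboveCases j ?_ (fun l => ?_) k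
      · change ins i 0 y (τ j) = _
        rw [hτj, ins_same, ins_same]
      · change ins i 0 y (τ (j.succAbove l)) = _
        rw [← hρ, ins_sa, ins_sa]
        rfl
    have hmem : ∀ y : Fin m → ℝ, y ∈ sec K i ↔ y ∘ ρ ∈ sec K j := by
      intro y
      change ins i 0 y ∈ K ↔ ins j 0 (y ∘ ρ) ∈ K
      rw [← hins]
      constructor
      · exact hK.perm τ hτa hτb _
      · intro h
        have h1 := hK.perm τ hτa hτb _ h
        have h2 : (ins i 0 y ∘ τ) ∘ τ = ins i 0 y := by
          funext k
          change ins i 0 y (τ (τ k)) = _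
          rw [hττ]
        rwa [h2] at h1
    have hρa : ρ a₂ = a₁ := by
      apply Fin.succAbove_right_injective (p := i)
      rw [hρ, ha₂, hτa, ha₁]
    have hρb : ρ b₂ = b₁ := by
      apply Fin.succAbove_right_injective (p := i)
      rw [hρ, hb₂, hτb, hb₁]
    refine ⟨vol_perm ρ _ _ hmem, vol_perm ρ _ _ fun y => ?_⟩
    rw [mem_inter_iff, mem_inter_iff, hmem y]
    refine and_congr_right fun _ => ?_
    change 0 < y a₁ * y b₁ ↔ 0 < (y ∘ ρ) a₂ * (y ∘ ρ) b₂
    rw [Function.comp_apply, Function.comp_apply, hρa, hρb]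

end Vale.Agent.P248.H432.Q
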