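import Vale.Agent.P248.Bdl.B1

/-!
P248, Q1 for origin-symmetric bodies with many coordinate symmetries: specification of the blocks.
-/

open MeasureTheory Set
open scoped ENNReal

namespace Vale.Agent.P248.H432.Q

/-- section by `x i = 0` -/
def sec {m : ℕ} (K : Set (Fin (m + 1) → ℝ)) (i : Fin (m + 1)) : Set (Fin m → ℝ) :=
  {y | ins i 0 y ∈ K}

/-- projection along coordinate `i` -/
def sh {m : ℕ} (L : Set (Fin (m + 1) → ℝ)) (i : Fin (m + 1)) : Set (Fin m → ℝ) :=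
  {y | ∃ s : ℝ, ins i s y ∈ L}

/-- sign change of the coordinates in `J` -/
def flp {n : ℕ} (J : Finset (Fin n)) (x : Fin n → ℝ) : Fin n → ℝ :=
  fun i => if i ∈ J then -x i else x i

/-- the part in the closed positive orthant -/
def pos {n : ℕ} (K : Set (Fin n → ℝ)) : Set (Fin n → ℝ) := K ∩ {x | ∀ i, 0 ≤ x i}

/-- compact convex with `0` in the interior -/
structure SB {n : ℕ} (K : Set (Fin n → ℝ)) : Prop where
  cpt : IsCompact K
  cvx : Convex ℝ K
  int0 : (0 : Fin n → ℝ) ∈ interior K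

/-- all orthants have the same volume, in `K` and in all coordinate sections of `K` -/
def Equi {m : ℕ} (K : Set (Fin (m + 1) → ℝ)) : Prop :=
  (∀ J : Finset (Fin (m + 1)), 2 ^ (m + 1) * volume (pos (flp J ⁻¹' K)) = volume K) ∧
    ∀ (i : Fin (m + 1)) (J : Finset (Fin m)),
      2 ^ m * volume (pos (flp J ⁻¹' (sec K i))) = volume (sec K i)

/-- the conclusion of Q1 (with the polar body at `0`) -/
def Mah {n : ℕ} (K : Set (Fin n → ℝ)) : Prop :=
  ENNReal.ofReal (4 ^ n / (n.factorial : ℝ)) ≤ volume K * volume (polarP K 0)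

/-- block CONE (from `cone_lemma` of B1 with `g = gauge K`, `J = univ`) -/
def PCone : Prop := ∀ (m : ℕ) (K : Set (Fin (m + 1) → ℝ)), SB K → ∀ x ∈ K, (∀ i, 0 ≤ x i) →
  ∑ i, ENNReal.ofReal (x i) * volume (pos (sec K i)) ≤ (m + 1 : ℝ≥0∞) * volume (pos K)

/-- block MINK: `|L + t Box| ≤ (1+t)^n |L|` and `|M + [-s,s] e_i| ≥ |M| + 2 s |sh M i|` -/
def PMink : Prop := ∀ (m : ℕ) (L : Set (Fin (m + 1) → ℝ)) (w : Fin (m + 1) → ℝ), IsCompact L →
  Convex ℝ L → (∀ i, 0 ≤ w i) → {y : Fin (m + 1) → ℝ | ∀ i, |y i| ≤ w i} ⊆ L →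
  ∑ i, ENNReal.ofReal (2 * w i) * volume (sh L i) ≤ (m + 1 : ℝ≥0∞) * volume L

/-- block HAHN (Hahn-Banach) -/
def PHahn : Prop := ∀ (m : ℕ) (K : Set (Fin (m + 1) → ℝ)), SB K → ∀ i,
  polarP (sec K i) 0 ⊆ sh (polarP K 0) i

/-- block MAIN: from PCone, PMink, PHahn -/
def PMain : Prop := ∀ (m : ℕ) (K : Set (Fin (m + 1) → ℝ)), SB K → Equi K →
  (∀ i, Mah (sec K i)) → Mah K

/-- open double cone between the lines of angles `θ` and `φ` in the plane of coordinates `a, b` -/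
def dc {n : ℕ} (a b : Fin n) (θ φ : ℝ) : Set (Fin n → ℝ) :=
  {z | 0 < (z b * Real.cos θ - z a * Real.sin θ) * (z a * Real.sin φ - z b * Real.cos φ)}

/-- block IVT: simultaneous equipartition of two bodies by two lines of a plane. Put
`F k θ = (volume (K k ∩ dc a b 0 θ)).toReal` on `[0, π]`; continuous, strictly increasing,
`F k 0 = 0`, `F k π = M k`; find `θ ≤ c ≤ φ` (`F 1 c = M 1 / 2`) with
`F k φ - F k θ = M k / 2` for `k = 1, 2` (the difference changes sign between `(0, c)` and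
`(c, π)`). -/
def PIvt : Prop := ∀ (n₁ n₂ : ℕ) (K₁ : Set (Fin n₁ → ℝ)) (K₂ : Set (Fin n₂ → ℝ))
  (a₁ b₁ : Fin n₁) (a₂ b₂ : Fin n₂), a₁ ≠ b₁ → a₂ ≠ b₂ → SB K₁ → SB K₂ →
  ∃ θ φ : ℝ, Real.sin (φ - θ) ≠ 0 ∧ 2 * volume (K₁ ∩ dc a₁ b₁ θ φ) = volume K₁ ∧
    2 * volume (K₂ ∩ dc a₂ b₂ θ φ) = volume K₂

/-- unconditional bodies -/
def Unc {n : ℕ} (K : Set (Fin n → ℝ)) : Prop :=
  ∀ i, ∀ x ∈ K, Function.update x i (-x i) ∈ K

/-- block UNC (1): orthants of unconditional bodies -/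
def PUncEq : Prop := ∀ (n : ℕ) (K : Set (Fin n → ℝ)), SB K → Unc K →
  ∀ J : Finset (Fin n), 2 ^ n * volume (pos (flp J ⁻¹' K)) = volume K

/-- block UNC (2): Q1 for unconditional bodies, from PMain and PUncEq by induction on `n` -/
def PUnc : Prop := ∀ (n : ℕ) (K : Set (Fin n → ℝ)), SB K → Unc K → Mah K

/-- origin-symmetric bodies invariant under the signed permutations of all coordinates but
`a, b` -/
structure Cls {n : ℕ} (a b : Fin n) (K : Set (Fin n → ℝ)) : Prop where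
  body : SB K
  ne : a ≠ b
  neg : ∀ x ∈ K, -x ∈ K
  flip : ∀ i, i ≠ a → i ≠ b → ∀ x ∈ K, Function.update x i (-x i) ∈ K
  perm : ∀ σ : Equiv.Perm (Fin n), σ a = a → σ b = b → ∀ x ∈ K, x ∘ σ ∈ K

/-- block ORT: all orthants of `K` have the same volume as soon as the two quadrant types in
the plane `a, b` have the same volume -/
def POrt : Prop := ∀ (n : ℕ) (a b : Fin n) (K : Set (Fin n → ℝ)), Cls a b K →
  2 * volume (K ∩ {z | 0 < z a * z b}) = volume K →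
  ∀ J : Finset (Fin n), 2 ^ n * volume (pos (flp J ⁻¹' K)) = volume K

/-- block SEC: sections of bodies of the class -/
def PSec : Prop := ∀ (m : ℕ) (a b : Fin (m + 1)) (K : Set (Fin (m + 1) → ℝ)), Cls a b K →
  (∀ i, i ≠ a → i ≠ b → ∃ a' b' : Fin m, i.succAbove a' = a ∧ i.succAbove b' = b ∧
    Cls a' b' (sec K i)) ∧
  (∀ i, i = a ∨ i = b → SB (sec K i) ∧ Unc (sec K i)) ∧
  (∀ i j, i ≠ a → i ≠ b → j ≠ a → j ≠ b → ∀ a₁ b₁ a₂ b₂ : Fin m, i.succAbove a₁ = a →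
    i.succAbove b₁ = b → j.succAbove a₂ = a → j.succAbove b₂ = b →
    volume (sec K i) = volume (sec K j) ∧
    volume (sec K i ∩ {z | 0 < z a₁ * z b₁}) = volume (sec K j ∩ {z | 0 < z a₂ * z b₂}))

/-- Q1's inequality for the class -/
def PCls : Prop := ∀ (n : ℕ) (a b : Fin n) (K : Set (Fin n → ℝ)), Cls a b K → Mah K

end Vale.Agent.P248.H432.Q
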