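import Vale.Agent.P248.H432.Q.Hahn
import Vale.Agent.P248.H432.Q.Main

/-!
P248, block UNC: unconditional bodies.
-/

open MeasureTheory Set
open scoped ENNReal Topology

namespace Vale.Agent.P248.H432.Q

/-- unconditional sets are invariant under all sign changes -/
theorem Unc.flp_mem {n : ℕ} {K : Set (Fin n → ℝ)} (hK : Unc K) (J : Finset (Fin n))
    {x : Fin n → ℝ} (hx : x ∈ K) : flp J x ∈ K := by
  classical
  induction J using Finset.induction_on with
  | empty =>
    have : flp ∅ x = x := by
      funext i
      simp [flp]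
    rwa [this]
  | insert a J ha ih =>
    have h1 := hK a _ ih
    have e : Function.update (flp J x) a (-flp J x a) = flp (insert a J) x := by
      funext i
      by_cases h : i = a
      · subst h
        simp [flp, ha]
      · simp [flp, h]
    rwa [e] at h1

theorem Unc.preimage_flp {n : ℕ} {K : Set (Fin n → ℝ)} (hK : Unc K) (J : Finset (Fin n)) :
    flp J ⁻¹' K = K := by
  ext x
  constructor
  · intro h
    have := hK.flp_mem J h
    rwa [flp_flp] at this
  · intro h
    exact hK.flp_mem J h

theorem measurePreserving_flp {n : ℕ} (J : Finset (Fin n)) :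
    MeasurePreserving (flp J) (volume : Measure (Fin n → ℝ)) volume := by
  have h : ∀ i : Fin n, MeasurePreserving (fun t : ℝ => if i ∈ J then -t else t) volume volume := by
    intro i
    by_cases hi : i ∈ J
    · simp only [hi, if_true]
      exact Measure.measurePreserving_neg volume
    · simp only [hi, if_false]
      exact MeasurePreserving.id volume
  exact volume_preserving_pi h

/-- the open orthants -/
def orth {n : ℕ} (J : Finset (Fin n)) : Set (Fin n → ℝ) :=
  {x | ∀ i, (i ∈ J → x i < 0) ∧ (i ∉ J → 0 < x i)}

theorem measurableSet_orth {n : ℕ} (J : Finset (Fin n)) : MeasurableSet (orth J) := by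
  have : orth J = ⋂ i, {x : Fin n → ℝ | (i ∈ J → x i < 0) ∧ (i ∉ J → 0 < x i)} := by
    ext x
    simp [orth]
  rw [this]
  refine MeasurableSet.iInter fun i => ?_
  by_cases h : i ∈ J
  · simp only [h, forall_const, not_true_eq_false, IsEmpty.forall_iff, and_true]
    exact measurableSet_lt (measurable_pi_apply i) measurable_const
  · simp only [h, forall_const, not_false_eq_true, IsEmpty.forall_iff, true_and]
    exact measurableSet_lt measurable_const (measurable_pi_apply i)

theorem orth_disjoint {n : ℕ} {J J' : Finset (Fin n)} (h : J ≠ J') :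
    Disjoint (orth J) (orth J') := by
  rw [Set.disjoint_left]
  intro x hx hx'
  apply h
  ext i
  constructor
  · intro hi
    by_contra hi'
    exact absurd ((hx i).1 hi) (not_lt.2 ((hx' i).2 hi').le)
  · intro hi
    by_contra hi'
    exact absurd ((hx' i).1 hi) (not_lt.2 ((hx i).2 hi').le)

/-- the coordinate hyperplanes -/
def hyp (n : ℕ) : Set (Fin n → ℝ) := {x | ∃ i, x i = 0}

theorem volume_hyp (n : ℕ) : volume (hyp n) = 0 := by
  have : hyp n = ⋃ i, {x : Fin n → ℝ | x i = 0} := by
    ext x
    simp [hyp]
  rw [this]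
  refine measure_iUnion_null fun i => ?_
  rw [volume_pi]
  exact Measure.pi_hyperplane (fun _ => volume) i 0

theorem iUnion_orth (n : ℕ) : (⋃ J : Finset (Fin n), orth J) = (hyp n)ᶜ := by
  classical
  ext x
  simp only [mem_iUnion, mem_compl_iff]
  constructor
  · rintro ⟨J, hJ⟩ ⟨i, hi⟩
    by_cases h : i ∈ J
    · exact absurd ((hJ i).1 h) (by rw [hi]; exact lt_irrefl _)
    · exact absurd ((hJ i).2 h) (by rw [hi]; exact lt_irrefl _)
  · intro h
    refine ⟨Finset.univ.filter (fun i => x i < 0), fun i => ⟨fun hi => ?_, fun hi => ?_⟩⟩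
    · exact (Finset.mem_filter.1 hi).2
    · have h1 : ¬ x i < 0 := fun h' => hi (Finset.mem_filter.2 ⟨Finset.mem_univ _, h'⟩)
      have h2 : x i ≠ 0 := fun h' => h ⟨i, h'⟩
      exact lt_of_le_of_ne (not_lt.1 h1) (Ne.symm h2)

/-- the volume is the sum of the volumes in the open orthants -/
theorem volume_eq_sum {n : ℕ} {K : Set (Fin n → ℝ)} (hK : MeasurableSet K) :
    volume K = ∑ J : Finset (Fin n), volume (K ∩ orth J) := by
  have h1 : volume K = volume (K ∩ (hyp n)ᶜ) := by
    refine (measure_inter_conull ?_).symm
    rw [compl_compl]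
    exact volume_hyp n
  rw [h1, ← iUnion_orth, inter_iUnion, measure_iUnion, tsum_fintype]
  · intro J J' h
    exact (orth_disjoint h).mono inter_subset_right inter_subset_right
  · intro J
    exact hK.inter (measurableSet_orth J)

/-- the closed positive orthant -/
theorem volume_pos {n : ℕ} (K : Set (Fin n → ℝ)) :
    volume (pos K) = volume (K ∩ orth ∅) := by
  apply le_antisymm
  · calc volume (pos K) ≤ volume ((K ∩ orth ∅) ∪ hyp n) := by
          apply measure_mono
          rintro x ⟨hx, h⟩
          by_cases h0 : x ∈ hyp n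
          · exact Or.inr h0
          · refine Or.inl ⟨hx, fun i => ⟨fun hi => absurd hi (Finset.notMem_empty i), fun _ => ?_⟩⟩
            exact lt_of_le_of_ne (h i) (fun h' => h0 ⟨i, h'.symm⟩)
      _ ≤ volume (K ∩ orth ∅) + volume (hyp n) := measure_union_le _ _
      _ = volume (K ∩ orth ∅) := by rw [volume_hyp, add_zero]
  · apply measure_mono
    rintro x ⟨hx, h⟩
    exact ⟨hx, fun i => ((h i).2 (Finset.notMem_empty i)).le⟩

/-- the orthants of the reflected set -/
theorem volume_flp {n : ℕ} {K : Set (Fin n → ℝ)} (hK : MeasurableSet K) (J : Finset (Fin n)) :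
    volume (pos (flp J ⁻¹' K)) = volume (K ∩ orth J) := by
  rw [volume_pos]
  have e : flp J ⁻¹' K ∩ orth ∅ = flp J ⁻¹' (K ∩ orth J) := by
    ext x
    constructor
    · rintro ⟨h1, h2⟩
      refine ⟨h1, fun i => ⟨fun hi => ?_, fun hi => ?_⟩⟩
      · have := (h2 i).2 (Finset.notMem_empty i)
        simp only [flp, hi, if_true]
        linarith
      · have := (h2 i).2 (Finset.notMem_empty i)
        simp only [flp, hi, if_false]
        exact this
    · rintro ⟨h1, h2⟩
      refine ⟨h1, fun i => ⟨fun hi => absurd hi (Finset.notMem_empty i), fun _ => ?_⟩⟩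
      by_cases hi : i ∈ J
      · have := (h2 i).1 hi
        simp only [flp, hi, if_true] at this
        linarith
      · have := (h2 i).2 hi
        simpa only [flp, hi, if_false] using this
  rw [e]
  exact (measurePreserving_flp J).measure_preimage (hK.inter (measurableSet_orth J)).nullMeasurableSet

theorem SB.measurableSet {n : ℕ} {K : Set (Fin n → ℝ)} (hK : SB K) : MeasurableSet K :=
  hK.cpt.isClosed.measurableSet

theorem pUncEq : PUncEq := by
  intro n K hK hU J
  have hm := hK.measurableSet
  have h1 : ∀ J : Finset (Fin n), volume (K ∩ orth J) = volume (pos K) := by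
    intro J
    rw [← volume_flp hm J, hU.preimage_flp J]
  rw [hU.preimage_flp J, volume_eq_sum hm]
  simp_rw [h1]
  rw [Finset.sum_const, Finset.card_univ, Fintype.card_finset, Fintype.card_fin, nsmul_eq_mul]
  push_cast
  rfl

theorem Unc.sec {m : ℕ} {K : Set (Fin (m + 1) → ℝ)} (hK : Unc K) (i : Fin (m + 1)) :
    Unc (sec K i) := by
  intro j y hy
  have h1 := hK (i.succAbove j) _ hy
  have e : Function.update (ins i 0 y) (i.succAbove j) (-ins i 0 y (i.succAbove j)) =
      ins i 0 (Function.update y j (-y j)) := by
    ext k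
    refine Fin.succAboveCases i ?_ (fun l => ?_) k
    · rw [Function.update_of_ne (Fin.succAbove_ne i j).symm, ins_same, ins_same]
    · rw [ins_succ, ins_succ]
      by_cases h : l = j
      · subst h
        rw [Function.update_self, Function.update_self]
      · rw [Function.update_of_ne (fun h' => h (Fin.succAbove_right_injective h')),
          Function.update_of_ne h, ins_succ]
  rw [e] at h1
  exact h1

/-- unconditional bodies satisfy the hypothesis of the main block -/
theorem Unc.equi {m : ℕ} {K : Set (Fin (m + 1) → ℝ)} (hK : SB K) (hU : Unc K) : Equi K :=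
  ⟨fun J => pUncEq (m + 1) K hK hU J, fun i J => pUncEq m _ (hK.sec i) (hU.sec i) J⟩

/-- dimension zero -/
theorem mah_zero {K : Set (Fin 0 → ℝ)} (hK : SB K) : Mah K := by
  have h0 : ∀ x : Fin 0 → ℝ, x = 0 := fun x => Subsingleton.elim _ _
  have h1 : K = univ := by
    ext x
    rw [h0 x]
    exact ⟨fun _ => mem_univ _, fun _ => interior_subset hK.int0⟩
  have h2 : polarP K 0 = univ := by
    ext y
    refine ⟨fun _ => mem_univ _, fun _ x _ => ?_⟩
    simp
  have h3 : (volume : Measure (Fin 0 → ℝ)) univ = 1 := by
    rw [volume_pi, Measure.pi_univ]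
    simp
  unfold Mah
  rw [h2, h1, h3]
  simp

theorem pUnc (hM : PMain) : PUnc := by
  intro n
  induction n with
  | zero => intro K hK _; exact mah_zero hK
  | succ m ih =>
    intro K hK hU
    exact hM m K hK (Unc.equi hK hU) fun i => ih _ (hK.sec i) (hU.sec i)

end Vale.Agent.P248.H432.Q
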