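import Vale.Agent.P248.H432.Q.Rotn
import Vale.Agent.P248.H432.Q.Num
import Vale.Agent.P248.H432.Q.Cone
import Vale.Agent.P248.H432.Q.Mink392
import Vale.Agent.P248.H432.Q.Hahn
import Vale.Agent.P248.H432.Q.Ivt753
import Vale.Agent.P248.H432.Q.Unc
import Vale.Agent.P248.H432.Q.Ort
import Vale.Agent.P248.H432.Q.Sec

/-! P248, Q1: assembly. -/

open MeasureTheory Set
open scoped ENNReal

namespace Vale.Agent.P248.H432.Q

theorem main_top : PMain := pMain pCone pMink pHahn

theorem cls_top : PCls := pCls main_top pIvt pUncEq (pUnc main_top) pOrt pSec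

/-- Q1's inequality for origin-symmetric bodies invariant under the signed permutations of all
coordinates but two -/
theorem cube_top {n : ℕ} {K : Set (E n)} (hK : IsConvexBody K) (hs : IsCubeSym K) :
    ENNReal.ofReal (4 ^ n / (n.factorial : ℝ)) ≤ volumeProduct K :=
  q1_cube cls_top hK hs

theorem cube_ratio {n : ℕ} {K : Set (E n)} (hK : IsConvexBody K) (hs : IsCubeSym K) :
    1 < mahlerRatio K := by
  have h2 : 2 ≤ n := by
    obtain ⟨-, -, k, l, hkl, -⟩ := hs
    by_contra h
    exact hkl (Fin.ext (by omega))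
  exact one_lt_ratio h2 (cube_top hK hs)

end Vale.Agent.P248.H432.Q
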